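import Crest.Agent.N221.Car.BrDefs
import Crest.Agent.N221.U.Ju
import Crest.Agent.N221.Car.Rep1

-- ▼ part N221/Car/BrEx
section

/-!
Row 221, block `Car` (helper62): a global orthonormal frame of the cover, by radial parallel transport.
-/

set_option autoImplicit false

open MeasureTheory Set Function
open scoped ContDiff RealInnerProductSpace
open Crest.GeometryTopology.Submanifold
open Crest.Agent.R241.DDefs Crest.Agent.R241.D2
open Crest.Agent.R208.J Crest.Agent.R208.L

noncomputable section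

namespace Crest.Agent.N221

theorem isUnit_adj_comp {n N : ℕ} {D : Euc n →L[ℝ] Euc N} (h : Injective D) :
    IsUnit (D.adjoint ∘L D) := by
  have h1 : Injective (D.adjoint ∘L D) := by
    refine (injective_iff_map_eq_zero _).2 fun u hu => (injective_iff_map_eq_zero D).1 h u ?_
    have h2 : ⟪D u, D u⟫ = 0 := by
      rw [← ContinuousLinearMap.adjoint_inner_left, ← ContinuousLinearMap.comp_apply, hu,
        inner_zero_left]
    exact inner_self_eq_zero.1 h2
  exact ContinuousLinearMap.isUnit_iff_bijective.2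
    ⟨h1, (LinearMap.injective_iff_surjective (f := (D.adjoint ∘L D).toLinearMap)).1 h1⟩

theorem frmExS : FrmExS := by
  intro n N a S G C
  obtain ⟨A, hA⟩ := C.lg_zero
  have hq : ∀ x, (C.pr 0, C.lg 0 x) ∈ TS G := fun x => ⟨C.pr_mem 0, C.lg_mem 0 x⟩
  let O : Euc n → Euc n →L[ℝ] Euc N := fun x => PT G (C.pr 0, C.lg 0 x) 1 ∘L A.toContinuousLinearMap
  have O_sm : ContDiff ℝ ∞ O := by
    refine ContDiff.clm_comp (contDiff_iff_contDiffAt.2 fun x => ?_) contDiff_const
    have h1 : ContDiff ℝ ∞ fun y : Euc n => C.lg 0 y :=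
      C.lg_smooth.comp (contDiff_const.prodMk contDiff_id)
    have h2 : ContDiff ℝ ∞ fun y : Euc n => ((C.pr 0, C.lg 0 y), (1 : ℝ)) :=
      (contDiff_const.prodMk h1).prodMk contDiff_const
    exact ContDiffAt.comp (g := fun z : (Euc N × Euc N) × ℝ => PT G z.1 z.2) x
      (contDiffAt_PT (hq x) 1) h2.contDiffAt
  have O_mem : ∀ x v, O x v ∈ G.T (C.pr x) := fun x v => by
    have h1 := PT_mem (hq x) 1 (a := A v) (hA v ▸ C.lg_mem 0 v)
    have h2 := C.pr_ex 0 _ (C.lg_mem 0 x)
    rw [C.ex_lg] at h2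
    rw [h2]
    exact h1
  have D_sm : ContDiff ℝ ∞ (fderiv ℝ C.pr) := C.pr_smooth.fderiv_right (m := ∞) (by simp)
  have Dt_sm : ContDiff ℝ ∞ fun x => (fderiv ℝ C.pr x).adjoint :=
    (ContinuousLinearMap.adjoint (𝕜 := ℝ) (E := Euc n)
      (F := Euc N)).toContinuousLinearEquiv.contDiff.comp D_sm
  have U : ∀ x, IsUnit ((fderiv ℝ C.pr x).adjoint ∘L fderiv ℝ C.pr x) := fun x =>
    isUnit_adj_comp (C.fderiv_pr_inj x)
  refine ⟨⟨O, fun x => Ring.inverse ((fderiv ℝ C.pr x).adjoint ∘L fderiv ℝ C.pr x) ∘L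
    ((fderiv ℝ C.pr x).adjoint ∘L O x), O_sm, ?_, fun x v w => ?_, fun x v => ?_⟩⟩
  · refine ContDiff.clm_comp (contDiff_iff_contDiffAt.2 fun x => ?_) (Dt_sm.clm_comp O_sm)
    exact ContDiffAt.comp (g := Ring.inverse) x (contDiffAt_ringInverse ℝ (U x).unit)
      (Dt_sm.clm_comp D_sm).contDiffAt
  · exact (inner_PT (hq x) 1 _ _).trans (A.inner_map_map v w)
  · obtain ⟨u, hu⟩ := C.fderiv_pr_surj x (O_mem x v)
    have h1 := congrArg (fun L : Euc n →L[ℝ] Euc n => L u) (Ring.inverse_mul_cancel _ (U x))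
    rw [ContinuousLinearMap.comp_apply, ContinuousLinearMap.comp_apply, ← hu]
    exact congrArg _ h1

end Crest.Agent.N221
end
end

-- ▼ part N221/Car/BrIbp
section

/-! Row 221, block `Car`: the divergence of the frame fields (helper88). -/

set_option autoImplicit false

open MeasureTheory Set Function
open scoped ContDiff RealInnerProductSpace
open Crest.GeometryTopology.Submanifold

noncomputable section

namespace Crest.Agent.N221

namespace Ibp

variable {n : ℕ}

theorem contDiff_det : ContDiff ℝ ∞ (fun T : Op n => T.det) := by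
  have h : (fun T : Op n => T.det) = fun T => ∑ σ : Equiv.Perm (Fin n),
      ((Equiv.Perm.sign σ : ℤ) : ℝ) * ∏ k, T (EuclideanSpace.single k 1) (σ k) := by
    funext T
    change LinearMap.det (T : Euc n →ₗ[ℝ] Euc n) = _
    rw [← LinearMap.det_toMatrix (EuclideanSpace.basisFun (Fin n) ℝ).toBasis, Matrix.det_apply']
    simp [LinearMap.toMatrix_apply]
  rw [h]
  refine ContDiff.sum fun σ _ => contDiff_const.mul (contDiff_prod fun k _ => ?_)
  exact (EuclideanSpace.proj (𝕜 := ℝ) (σ k)).contDiff.comp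
    (contDiff_id.clm_apply (contDiff_const (c := (EuclideanSpace.single k (1 : ℝ) : Euc n))))

theorem tr_eq (A : Op n) : LinearMap.trace ℝ (Euc n) (A : Euc n →ₗ[ℝ] Euc n) =
    ∑ j, A (EuclideanSpace.single j 1) j := by
  rw [LinearMap.trace_eq_matrix_trace ℝ (EuclideanSpace.basisFun (Fin n) ℝ).toBasis]
  simp [Matrix.trace, LinearMap.toMatrix_apply]

theorem tr_conj (L : Euc n ≃L[ℝ] Euc n) (A : Op n) :
    ∑ j, L.symm (A (L (EuclideanSpace.single j 1))) j = ∑ j, A (EuclideanSpace.single j 1) j := by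
  have h1 := tr_eq ((L.symm : Op n) ∘L (A ∘L (L : Op n)))
  have h2 := LinearMap.trace_comp_comm' ((A ∘L (L : Op n) : Op n) : Euc n →ₗ[ℝ] Euc n)
    ((L.symm : Op n) : Euc n →ₗ[ℝ] Euc n)
  have h3 : ((A ∘L (L : Op n) : Op n) : Euc n →ₗ[ℝ] Euc n) ∘ₗ
      ((L.symm : Op n) : Euc n →ₗ[ℝ] Euc n) = A := by ext1 v; simp
  rw [h3, tr_eq A] at h2
  exact h1.symm.trans h2

/-- the integral of a divergence -/
theorem int_div {Y : Euc n → Euc n} (hY : ContDiff ℝ ∞ Y) (hc : HasCompactSupport Y) :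
    ∫ x, ∑ k, fderiv ℝ Y x (EuclideanSpace.single k 1) k = 0 := by
  have hg : ∀ k, ContDiff ℝ ∞ fun x => Y x k := fun k =>
    (EuclideanSpace.proj (𝕜 := ℝ) k).contDiff.comp hY
  have hs : ∀ k, HasCompactSupport fun x => Y x k := fun k =>
    hc.comp_left (g := fun v : Euc n => v k) rfl
  have e : ∀ k x, fderiv ℝ Y x (EuclideanSpace.single k 1) k =
      fderiv ℝ (fun x => Y x k) x (EuclideanSpace.single k 1) := fun k x =>
    (congrArg (fun L : Euc n →L[ℝ] ℝ => L (EuclideanSpace.single k 1))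
      ((EuclideanSpace.proj (𝕜 := ℝ) k).hasFDerivAt.comp x
        (hY.differentiable (by simp) x).hasFDerivAt).fderiv).symm
  have hi : ∀ k, Integrable fun x => fderiv ℝ (fun x => Y x k) x (EuclideanSpace.single k 1) :=
    fun k => (((hg k).continuous_fderiv (by simp)).clm_apply
      continuous_const).integrable_of_hasCompactSupport ((hs k).fderiv_apply ℝ _)
  simp only [e]
  rw [integral_finsetSum _ fun k _ => hi k]
  refine Finset.sum_eq_zero fun k _ => ?_
  have := integral_mul_fderiv_eq_neg_fderiv_mul_of_integrable (μ := volume) (f := fun _ => (1 : ℝ))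
    (g := fun x => Y x k) (v := EuclideanSpace.single k 1) (by simp) (by simpa using hi k)
    (by simpa using (hg k).continuous.integrable_of_hasCompactSupport (hs k))
    (fun x _ => differentiableAt_const _) fun x _ => (hg k).differentiable (by simp) x
  simpa using this

/-- Jacobi's formula for the density -/
theorem fderiv_rho {E : Euc n → Op n} (hE : ContDiff ℝ ∞ E) (hd : ∀ x, (E x).det ≠ 0)
    (x z : Euc n) : fderiv ℝ (fun y => |(E y).det|⁻¹) x z = -(|(E x).det|⁻¹ *
      ∑ j, ((E x).toContinuousLinearEquivOfDetNeZero (hd x)).symm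
        (fderiv ℝ E x z (EuclideanSpace.single j 1)) j) := by
  set L := (E x).toContinuousLinearEquivOfDetNeZero (hd x) with hL
  have hD : ContDiff ℝ ∞ fun y => (E y).det := contDiff_det.comp hE
  have hρ : ContDiff ℝ ∞ fun y => |(E y).det|⁻¹ :=
    (hD.abs hd).inv fun y => abs_ne_zero.2 (hd y)
  have hl : HasDerivAt (fun s : ℝ => x + s • z) z 0 := by
    simpa using ((hasDerivAt_id (0 : ℝ)).smul_const z).const_add x
  have x0 : x + (0 : ℝ) • z = x := by simp
  have h1 : HasDerivAt (fun s : ℝ => E (x + s • z)) (fderiv ℝ E x z) 0 :=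
    (hE.differentiable (by simp) x).hasFDerivAt.comp_hasDerivAt_of_eq 0 hl x0.symm
  have h2 := hasDerivAt_det_pt (M := fun s : ℝ => E (x + s • z)) (A := 0)
    (B := (L.symm : Op n) ∘L fderiv ℝ E x z) (t := 0) (fun w => by
      have := h1.clm_apply (hasDerivAt_const (0 : ℝ) w)
      refine this.congr_deriv ?_
      simp only [x0, map_zero, add_zero, zero_apply, zero_add,
        ContinuousLinearMap.comp_apply, ContinuousLinearEquiv.coe_coe]
      exact (L.apply_symm_apply _).symm) (by rw [x0]; exact hd x)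
  have h3 : HasDerivAt (fun s : ℝ => |(E (x + s • z)).det|⁻¹)
      (fderiv ℝ (fun y => |(E y).det|⁻¹) x z) 0 :=
    (hρ.differentiable (by simp) x).hasFDerivAt.comp_hasDerivAt_of_eq 0 hl x0.symm
  have h4 := (h3.fun_mul h2).fun_pow 2
  have h5 : (fun s : ℝ => (|(E (x + s • z)).det|⁻¹ * (E (x + s • z)).det) ^ 2) = fun _ => 1 := by
    funext s
    rw [mul_pow, inv_pow, sq_abs, inv_mul_cancel₀ (pow_ne_zero 2 (hd _))]
  rw [h5] at h4
  have h6 := h4.unique (hasDerivAt_const _ _)
  simp only [x0, tr_eq, zero_apply, PiLp.zero_apply, Finset.sum_const_zero,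
    zero_add, ContinuousLinearMap.comp_apply, ContinuousLinearEquiv.coe_coe] at h6
  have h7 := (mul_eq_zero.1 h6).resolve_left (by
    have := hd x
    have := abs_ne_zero.2 (hd x)
    positivity)
  refine mul_right_cancel₀ (hd x) ?_
  linarith

end Ibp

open Ibp in
theorem ibpS : IbpS := by
  intro n F E hE he hd i φ hφ
  have hρ : ContDiff ℝ ∞ fun y => |(E y).det|⁻¹ :=
    ((contDiff_det.comp hE).abs hd).inv fun y => abs_ne_zero.2 (hd y)
  have hu : ContDiff ℝ ∞ fun y => φ.1 y * |(E y).det|⁻¹ := (Car.Sm.sm φ).mul hρ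
  rw [← int_div (Y := fun y => (φ.1 y * |(E y).det|⁻¹) • F.e i y) (hu.smul (F.e_sm i))
    (HasCompactSupport.smul_right (f := fun y => φ.1 y * |(E y).det|⁻¹) hφ.mul_right)]
  refine integral_congr_ae (Filter.Eventually.of_forall fun x => ?_)
  set L := (E x).toContinuousLinearEquivOfDetNeZero (hd x) with hL
  have hLe : ∀ j, L (EuclideanSpace.single j 1) = F.e j x := fun j => he x j
  have e1 : ∀ j z, fderiv ℝ E x z (EuclideanSpace.single j 1) = fderiv ℝ (F.e j) x z := fun j z => by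
    rw [show F.e j = fun y => E y (EuclideanSpace.single j 1) from funext fun y => (he y j).symm,
      fderiv_clm_apply (hE.differentiable (by simp) x) (differentiableAt_const _)]
    simp
  have e2 : ∑ j, fderiv ℝ (F.e i) x (EuclideanSpace.single j 1) j -
      ∑ j, L.symm (fderiv ℝ (F.e j) x (F.e i x)) j = ∑ j, (F.om j j i).1 x := by
    rw [← tr_conj L, ← Finset.sum_sub_distrib]
    refine Finset.sum_congr rfl fun j _ => ?_
    have h0 : (F.om i j j).1 x = 0 := by
      have := congrArg (fun ψ : Car.Sm n => ψ.1 x) (F.skew i j j)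
      change _ = -(F.om i j j).1 x at this
      linarith
    rw [hLe, ← PiLp.sub_apply, ← map_sub, F.tors j i x, map_sum]
    simp only [← hLe, map_smul, ContinuousLinearEquiv.symm_apply_apply]
    simp [Finset.sum_apply, Pi.single_apply, h0]
  have e3 := fderiv_rho hE hd x (F.e i x)
  simp only [e1, ← hL] at e3
  have e4 : ∑ k, fderiv ℝ (fun y => φ.1 y * |(E y).det|⁻¹) x (EuclideanSpace.single k 1) *
      F.e i x k = fderiv ℝ (fun y => φ.1 y * |(E y).det|⁻¹) x (F.e i x) := by
    conv_rhs => rw [← Frm.sum_ε (F.e i x), map_sum]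
    simp [mul_comm]
  have e5 : (F.alg.D i φ + F.alg.dv i * φ).1 x =
      fderiv ℝ φ.1 x (F.e i x) + (∑ j, (F.om j j i).1 x) * φ.1 x := by
    rw [← Car.evx_apply, map_add, map_mul, Car.AFr.dv, map_sum]
    rfl
  beta_reduce
  rw [fderiv_fun_smul (hu.differentiable (by simp) x) ((F.e_sm i).differentiable (by simp) x)]
  simp only [add_apply, smul_apply,
    ContinuousLinearMap.smulRight_apply, PiLp.add_apply, PiLp.smul_apply, smul_eq_mul,
    Finset.sum_add_distrib, ← Finset.mul_sum]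
  rw [e4, fderiv_fun_mul ((Car.Sm.sm φ).differentiable (by simp) x) (hρ.differentiable (by simp) x),
    e5, ← e2]
  simp only [add_apply, smul_apply, smul_eq_mul, e3]
  ring

end Crest.Agent.N221
end
end

-- ▼ part N221/Car/BrGood
section

/-!
Row 221, block `Car`: the frame model of the cover is `Good` (helper43).
-/

set_option autoImplicit false

open MeasureTheory Set Function
open scoped ContDiff RealInnerProductSpace
open Crest.GeometryTopology.Submanifold
open Crest.Agent.R241.DDefs Crest.Agent.R241.D2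
open Crest.Agent.R208.J Crest.Agent.R208.L
open Crest.Agent.R086 Crest.Agent.R086.SH

noncomputable section

namespace Crest.Agent.N221

namespace BrG

variable {n N : ℕ} {a : ℝ} {S : Set (Euc N)} {G : Geo n N (-(a ^ 2)) S} {C : Cov G} (Φ : Frm C)

lemma jac_det (x : Euc n) :
    Crest.Agent.R241.AF.jac (fderiv ℝ C.pr x) * |(Φ.E x).det| = 1 := by
  rw [← Cov.Pol.jac_comp]
  have e : (fderiv ℝ C.pr x).comp (Φ.E x) = Φ.O x := by
    ext1 v; exact Φ.pr_E x v
  rw [e]
  exact jac_isometry _ (Φ.inner_O x)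

lemma det_ne (x : Euc n) : (Φ.E x).det ≠ 0 := by
  intro h
  have := jac_det Φ x
  rw [h, abs_zero, mul_zero] at this
  exact zero_ne_one this

lemma jac_eq (x : Euc n) :
    Crest.Agent.R241.AF.jac (fderiv ℝ C.pr x) = |(Φ.E x).det|⁻¹ :=
  eq_inv_of_mul_eq_one_left (jac_det Φ x)

lemma O_sum (x v : Euc n) : Φ.O x v = ∑ i, v i • Φ.O x (Frm.ε i) := by
  conv_lhs => rw [← Frm.sum_ε v]
  simp only [map_sum, map_smul]

lemma R4_1 (x v : Euc n) (p Y Z W : Euc N) :
    R4 G p (Φ.O x v) Y Z W = ∑ i, v i * R4 G p (Φ.O x (Frm.ε i)) Y Z W := by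
  rw [O_sum Φ x v]
  simp only [R4, II, map_sum, map_smul, sum_apply, smul_apply, sum_inner, real_inner_smul_left,
    mul_sub, Finset.sum_sub_distrib]

lemma R4_2 (x v : Euc n) (p X Z W : Euc N) :
    R4 G p X (Φ.O x v) Z W = ∑ i, v i * R4 G p X (Φ.O x (Frm.ε i)) Z W := by
  rw [O_sum Φ x v]
  simp only [R4, II, map_sum, map_smul, sum_apply, smul_apply, inner_sum, real_inner_smul_right,
    mul_sub, Finset.sum_sub_distrib]

lemma R4_3 (x v : Euc n) (p X Y W : Euc N) :
    R4 G p X Y (Φ.O x v) W = ∑ i, v i * R4 G p X Y (Φ.O x (Frm.ε i)) W := by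
  rw [O_sum Φ x v]
  simp only [R4, II, map_sum, map_smul, sum_inner, inner_sum, real_inner_smul_left,
    real_inner_smul_right, mul_sub, Finset.sum_sub_distrib]

lemma R4_4 (x v : Euc n) (p X Y Z : Euc N) :
    R4 G p X Y Z (Φ.O x v) = ∑ i, v i * R4 G p X Y Z (Φ.O x (Frm.ε i)) := by
  rw [O_sum Φ x v]
  simp only [R4, II, map_sum, map_smul, sum_inner, inner_sum, real_inner_smul_left,
    real_inner_smul_right, mul_sub, Finset.sum_sub_distrib]

lemma R4_sum (x v w : Euc n) :
    ∑ i, ∑ j, ∑ p, ∑ q, R4 G (C.pr x) (Φ.O x (Frm.ε i)) (Φ.O x (Frm.ε j)) (Φ.O x (Frm.ε q))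
      (Φ.O x (Frm.ε p)) * (v i * w j * w p * v q) =
    R4 G (C.pr x) (Φ.O x v) (Φ.O x w) (Φ.O x v) (Φ.O x w) := by
  rw [R4_1]
  refine Finset.sum_congr rfl fun i _ => ?_
  rw [R4_2 Φ x w, Finset.mul_sum]
  refine Finset.sum_congr rfl fun j _ => ?_
  rw [R4_4 Φ x w, Finset.mul_sum, Finset.mul_sum]
  refine Finset.sum_congr rfl fun p _ => ?_
  rw [R4_3 Φ x v, Finset.mul_sum, Finset.mul_sum, Finset.mul_sum]
  refine Finset.sum_congr rfl fun q _ => ?_
  ring

end BrG

theorem goodS (hI : IbpS) (hF : FrmS) : GoodS := by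
  intro n N a S G C Φ H
  refine ⟨inferInstance, ?_, ?_, pow_pos H.a_pos 2, ?_⟩
  · exact (Measure.absolutelyContinuous_of_le C.volume_le_vol).isOpenPosMeasure
  · intro i φ hφ
    have h := hI n Φ.fr Φ.E Φ.E_sm (fun _ _ => rfl) (BrG.det_ne Φ) i φ hφ
    rw [Cov.vol, integral_withDensity_eq_integral_toReal_smul C.continuous_dens.measurable
      (.of_forall fun _ => ENNReal.ofReal_lt_top), ← h]
    refine integral_congr_ae (.of_forall fun x => ?_)
    simp only [smul_eq_mul]
    rw [ENNReal.toReal_ofReal (Crest.Agent.R241.AF.jac_nonneg _), BrG.jac_eq Φ, mul_comm]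
  · intro x v w
    simp only [(hF n N a S G C Φ).2.1]
    rw [BrG.R4_sum Φ x v w]
    have h := G.curv _ (C.pr_mem x) _ (Φ.O_mem x v) _ (Φ.O_mem x w)
    rw [Φ.norm_O, Φ.norm_O, Φ.inner_O] at h
    rw [R4, II_symm G (C.pr_mem x) (Φ.O_mem x w) (Φ.O_mem x v), real_inner_self_eq_norm_sq]
    unfold II
    linarith

end Crest.Agent.N221
end
end

-- ▼ part N221/Car/BrFin

/-!
Row 221, block `Car` (helper34): finite degree on the cover.
-/

set_option autoImplicit false

open MeasureTheory Set Function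
open scoped ContDiff RealInnerProductSpace
open Crest.GeometryTopology.Submanifold
open Crest.Agent.R241.DDefs Crest.Agent.R241.D2
open Crest.Agent.R208.J Crest.Agent.R208.L
open Crest.Agent.R086 Crest.Agent.R086.SH

noncomputable section

namespace Crest.Agent.N221

namespace Frm

variable {n N : ℕ} {a : ℝ} {S : Set (Euc N)} {G : Geo n N (-(a ^ 2)) S} {C : Cov G} (Φ : Frm C)

/-- change of frame between two points over the same point of `S` -/
lemma exists_rot {x y : Euc n} (h : C.pr y = C.pr x) :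
    ∃ R : Euc n ≃ₗᵢ[ℝ] Euc n, ∀ v, Φ.O y (R v) = Φ.O x v := by
  have h1 : ∀ v, Φ.O y ((Φ.O y).adjoint (Φ.O x v)) = Φ.O x v := by
    intro v
    obtain ⟨u, hu⟩ := Φ.O_surj y (h ▸ Φ.O_mem x v)
    rw [← hu]
    congr 1
    refine ext_inner_right ℝ fun b => ?_
    rw [ContinuousLinearMap.adjoint_inner_left, Φ.inner_O]
  let R0 : Euc n →ₗᵢ[ℝ] Euc n :=
    ⟨((Φ.O y).adjoint.comp (Φ.O x)).toLinearMap, fun v => by
      rw [← Φ.norm_O y, ← Φ.norm_O x v]; exact congrArg norm (h1 v)⟩
  exact ⟨R0.toLinearIsometryEquiv rfl, h1⟩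

lemma contDiffAt_up {F : Euc n → Euc N → ℝ} {x v : Euc n}
    (hF : ContDiffAt ℝ ∞ (uncurry F) (x, Φ.O x v)) : ContDiffAt ℝ ∞ (uncurry (Φ.up F)) (x, v) := by
  have h : ContDiff ℝ ∞ fun q : Euc n × Euc n => (q.1, Φ.O q.1 q.2) :=
    contDiff_fst.prodMk ((Φ.O_sm.comp contDiff_fst).clm_apply contDiff_snd)
  exact ContDiffAt.comp (g := uncurry F) (x, v) hF h.contDiffAt

end Frm

lemma pfun_lc {n : ℕ} {ι : Type} (s : Finset ι) (c : ι → ℝ) (p : ι → Car.P0 n) (v : Euc n) :
    pfun (∑ i ∈ s, c i • p i) v = ∑ i ∈ s, c i * pfun (p i) v := by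
  simp [pfun]

theorem finS (hC : Car.CarS) (hF : FrmS) (hG : GoodS) : FinS := by
  intro n N a S G C Φ H V _ _ _ L k hsm hX hD
  classical
  let b := Module.finBasis ℝ V
  let u : Fin (Module.finrank ℝ V) → Euc n → Euc n → ℝ := fun i => Φ.up (L (b i))
  have hL : ∀ y x w, L y x w = ∑ i, b.repr y i * L (b i) x w := by
    intro y x w
    conv_lhs => rw [← b.sum_repr y, map_sum]
    simp [Finset.sum_apply]
  obtain ⟨D, P, hP, hu⟩ := hC n H.hn Φ.fr C.vol (a ^ 2) (hG n N a S G C Φ H) _ u k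
    (fun i x v hv => Φ.contDiffAt_up (hsm _ _ _ (Φ.un hv)))
    (fun i x v hv => (((hF n N a S G C Φ).2.2 (L (b i)) x v
      ((hsm _ _ _ (Φ.un hv)).differentiableAt (by simp))).2.2).unique (hX _ _ _ (Φ.un hv)))
    (by
      obtain ⟨R, -, hR⟩ := C.exists_deck
      refine ⟨R + 1, fun x => ?_⟩
      obtain ⟨g', hg', hx⟩ := hR x
      obtain ⟨g, hg, h1, h2⟩ := Cov.Deck.inv C hg'
      choose O hO using fun z => Φ.exists_rot (hg.pr_eq z)
      choose y' hy' using hD g hg
      refine ⟨⟨⟨⟨g, g', h2, h1⟩, hg.smooth.continuous, hg'.smooth.continuous⟩,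
        ⟨hg.smooth.continuous.measurable, Cov.Deck.map_vol C H hg⟩, O,
        fun i j => b.repr (y' (b i)) j, fun i z v hv => ?_⟩, g' x, by linarith, h1 x⟩
      show L (b i) (g z) (Φ.O (g z) (O z v)) = _
      rw [hO, hy' _ _ _ (Φ.un hv), hL]
      rfl)
  let Q : Fin (Module.finrank ℝ V) → ℕ → Car.PP n := fun i l => if l < D then P i l else 0
  have hQ : ∀ y l, b.constr ℝ Q y l = ∑ i, b.repr y i • Q i l := by
    intro y l
    rw [Module.Basis.constr_apply_fintype]
    simp [Finset.sum_apply]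
  refine ⟨D, b.constr ℝ Q, fun y l x => ?_, fun y l hl => ?_, fun y x v hv => ?_⟩
  · rw [hQ, Car.Co.ax_sum]
    simp only [Car.Co.ax_smul]
    refine Car.R1.harm_sum _ _ fun i _ => Car.R1.harm_smul _ ?_
    by_cases hl : l < D
    · simp only [Q, if_pos hl]; exact hP i l x
    · simpa [Q, if_neg hl, Car.ax] using Car.R1.harm_zero (n := n) l
  · rw [hQ]
    simp [Q, if_neg (not_lt.2 hl)]
  · rw [hL]
    simp only [hQ, Car.Co.ax_sum, Car.Co.ax_smul, pfun_lc]
    rw [Finset.sum_comm]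
    refine Finset.sum_congr rfl fun i _ => ?_
    rw [← Finset.mul_sum]
    congr 1
    refine (hu i x v hv).trans (Finset.sum_congr rfl fun l hl => ?_)
    simp only [Q, if_pos (Finset.mem_range.1 hl)]

end Crest.Agent.N221
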