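import Crest.Agent.R086.SphComp

-- ▼ part R086/SHF1
section

/-!
Row 86, spherical harmonics (helper545): Funk–Hecke.
Part 1: Gaussian expectation of polynomials, integration by parts, and
`∫_S ⟨y,w⟩^k p(w) dσ(w) = c_{k,l} p(y)` for unit `y` and harmonic homogeneous `p` of degree `l`.
-/

set_option autoImplicit false

open MvPolynomial Finset MeasureTheory

namespace Crest.Agent.R086.SH

variable {d : ℕ}

local notation "EE" => EuclideanSpace ℝ (Fin d)

lemma pfun_exp_bound (p : MvPolynomial (Fin d) ℝ) :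
    ∃ (C : ℝ) (m : ℕ), 0 ≤ C ∧ ∀ x : EE, |pfun p x| ≤ C * Real.exp (m * ‖x‖) := by
  induction p using MvPolynomial.induction_on with
  | C a =>
    refine ⟨|a|, 0, abs_nonneg _, fun x => ?_⟩
    simp [pfun]
  | add p q hp hq =>
    obtain ⟨C1, m1, h1, b1⟩ := hp
    obtain ⟨C2, m2, h2, b2⟩ := hq
    refine ⟨C1 + C2, m1 + m2, by positivity, fun x => ?_⟩
    rw [pfun_add]
    have e1 : Real.exp (m1 * ‖x‖) ≤ Real.exp (((m1 + m2 : ℕ) : ℝ) * ‖x‖) := by
      apply Real.exp_le_exp.mpr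
      push_cast
      nlinarith [norm_nonneg x, (Nat.cast_nonneg m2 : (0 : ℝ) ≤ m2)]
    have e2 : Real.exp (m2 * ‖x‖) ≤ Real.exp (((m1 + m2 : ℕ) : ℝ) * ‖x‖) := by
      apply Real.exp_le_exp.mpr
      push_cast
      nlinarith [norm_nonneg x, (Nat.cast_nonneg m1 : (0 : ℝ) ≤ m1)]
    calc |pfun p x + pfun q x| ≤ |pfun p x| + |pfun q x| := abs_add_le _ _
      _ ≤ C1 * Real.exp (m1 * ‖x‖) + C2 * Real.exp (m2 * ‖x‖) := add_le_add (b1 x) (b2 x)
      _ ≤ C1 * Real.exp (((m1 + m2 : ℕ) : ℝ) * ‖x‖) + C2 * Real.exp (((m1 + m2 : ℕ) : ℝ) * ‖x‖) :=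
        add_le_add (mul_le_mul_of_nonneg_left e1 h1) (mul_le_mul_of_nonneg_left e2 h2)
      _ = (C1 + C2) * Real.exp (((m1 + m2 : ℕ) : ℝ) * ‖x‖) := by ring
  | mul_X p j hp =>
    obtain ⟨C1, m1, h1, b1⟩ := hp
    refine ⟨C1, m1 + 1, h1, fun x => ?_⟩
    have e0 : pfun (p * X j) x = pfun p x * x j := by simp [pfun]
    have e1 : |x j| ≤ Real.exp ‖x‖ := by
      have h2 : |x j| ≤ ‖x‖ := by simpa using PiLp.norm_apply_le x j
      have h3 := Real.add_one_le_exp ‖x‖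
      linarith
    rw [e0, abs_mul]
    calc |pfun p x| * |x j| ≤ (C1 * Real.exp (m1 * ‖x‖)) * Real.exp ‖x‖ :=
          mul_le_mul (b1 x) e1 (abs_nonneg _) (mul_nonneg h1 (Real.exp_nonneg _))
      _ = C1 * Real.exp (((m1 + 1 : ℕ) : ℝ) * ‖x‖) := by
        rw [mul_assoc, ← Real.exp_add]; push_cast; ring_nf

/-- the Gaussian weight -/
noncomputable def gw (x : EE) : ℝ := Real.exp (-(‖x‖ ^ 2 / 2))

lemma continuous_gw : Continuous (gw : EE → ℝ) := by unfold gw; fun_prop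

lemma gw_pos (x : EE) : 0 < gw x := Real.exp_pos _

lemma integrable_gauss4 : Integrable (fun x : EE => Real.exp (-(‖x‖ ^ 2 / 4))) := by
  have h := GaussianFourier.integrable_cexp_neg_mul_sq_norm_add (V := EE) (b := (1 / 4 : ℂ))
    (by norm_num) 0 0
  have h2 := h.norm
  refine h2.congr (Filter.Eventually.of_forall fun x => ?_)
  simp only [Complex.norm_exp]
  congr 1
  simp only [zero_mul, add_zero]
  have : (-(1 / 4 : ℂ) * (‖x‖ : ℂ) ^ 2) = ((-(‖x‖ ^ 2 / 4) : ℝ) : ℂ) := by push_cast; ring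
  rw [this, Complex.ofReal_re]

lemma integrable_pfun_gw (p : MvPolynomial (Fin d) ℝ) : Integrable (fun x : EE => pfun p x * gw x) := by
  obtain ⟨C, m, hC, hb⟩ := pfun_exp_bound p
  have h1 : Integrable (fun x : EE => (C * Real.exp (m ^ 2)) * Real.exp (-(‖x‖ ^ 2 / 4))) :=
    integrable_gauss4.const_mul _
  refine h1.mono' ((continuous_pfun p).mul continuous_gw).aestronglyMeasurable
    (Filter.Eventually.of_forall fun x => ?_)
  rw [Real.norm_eq_abs, abs_mul, abs_of_pos (gw_pos x)]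
  calc |pfun p x| * gw x ≤ (C * Real.exp (m * ‖x‖)) * gw x :=
        mul_le_mul_of_nonneg_right (hb x) (gw_pos x).le
    _ = C * Real.exp (m * ‖x‖ - ‖x‖ ^ 2 / 2) := by
      unfold gw; rw [mul_assoc, ← Real.exp_add]; ring_nf
    _ ≤ C * Real.exp ((m : ℝ) ^ 2 - ‖x‖ ^ 2 / 4) := by
      refine mul_le_mul_of_nonneg_left (Real.exp_le_exp.mpr ?_) hC
      nlinarith [sq_nonneg ((m : ℝ) - ‖x‖ / 2)]
    _ = (C * Real.exp (m ^ 2)) * Real.exp (-(‖x‖ ^ 2 / 4)) := by
      rw [mul_assoc, ← Real.exp_add]; ring_nf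

lemma hasFDerivAt_gw (x : EE) :
    HasFDerivAt (gw : EE → ℝ) (-(gw x) • (innerSL ℝ x)) x := by
  have h1 : HasFDerivAt (fun x : EE => ‖x‖ ^ 2) (2 • (innerSL ℝ x)) x :=
    (hasStrictFDerivAt_norm_sq x).hasFDerivAt
  have h2 : HasFDerivAt (fun x : EE => -(‖x‖ ^ 2 / 2)) (-(innerSL ℝ x)) x := by
    have h3 := h1.const_mul (-(1 / 2) : ℝ)
    convert! h3 using 1
    · funext z; ring
    · ext y
      simp
  have h3 := h2.exp
  unfold gw
  convert! h3 using 1
  ext y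
  simp

lemma fderiv_gw_single (x : EE) (i : Fin d) :
    fderiv ℝ (gw : EE → ℝ) x (EuclideanSpace.single i 1) = -(x i) * gw x := by
  rw [(hasFDerivAt_gw x).fderiv]
  simp [EuclideanSpace.inner_single_right]
  ring

/-- Gaussian functional on polynomials -/
noncomputable def gE (p : MvPolynomial (Fin d) ℝ) : ℝ := ∫ x : EE, pfun p x * gw x

lemma gE_add (p q : MvPolynomial (Fin d) ℝ) : gE (p + q) = gE p + gE q := by
  unfold gE
  rw [← integral_add (integrable_pfun_gw p) (integrable_pfun_gw q)]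
  refine integral_congr_ae (Filter.Eventually.of_forall fun x => ?_)
  simp only [pfun_add]; ring

lemma gE_smul (c : ℝ) (p : MvPolynomial (Fin d) ℝ) : gE (c • p) = c * gE p := by
  unfold gE
  rw [← integral_const_mul]
  refine integral_congr_ae (Filter.Eventually.of_forall fun x => ?_)
  simp [pfun]; ring

lemma gE_zero : gE (0 : MvPolynomial (Fin d) ℝ) = 0 := by simp [gE, pfun]

lemma gE_sum {ι : Type*} (s : Finset ι) (p : ι → MvPolynomial (Fin d) ℝ) :
    gE (∑ i ∈ s, p i) = ∑ i ∈ s, gE (p i) := by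
  classical
  induction s using Finset.induction_on with
  | empty => simp [gE_zero]
  | insert a s ha ih => rw [Finset.sum_insert ha, Finset.sum_insert ha, gE_add, ih]

/-- Gaussian integration by parts. -/
lemma gE_X_mul (i : Fin d) (p : MvPolynomial (Fin d) ℝ) : gE (X i * p) = gE (pderiv i p) := by
  have h := integral_mul_fderiv_eq_neg_fderiv_mul_of_integrable (μ := (volume : Measure EE))
    (f := pfun p) (g := (gw : EE → ℝ)) (v := EuclideanSpace.single i 1)
    (by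
      simp only [fderiv_pfun_single]
      exact integrable_pfun_gw _)
    (by
      simp only [fderiv_gw_single]
      have := (integrable_pfun_gw (X i * p)).neg
      refine this.congr (Filter.Eventually.of_forall fun x => ?_)
      simp [pfun]; ring)
    (integrable_pfun_gw p)
    (fun x _ => (hasFDerivAt_pfun p x).differentiableAt)
    (fun x _ => (hasFDerivAt_gw x).differentiableAt)
  simp only [fderiv_pfun_single, fderiv_gw_single] at h
  have h1 : ∫ x : EE, pfun p x * (-(x i) * gw x) = -gE (X i * p) := by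
    unfold gE
    rw [← integral_neg]
    refine integral_congr_ae (Filter.Eventually.of_forall fun x => ?_)
    simp [pfun]; ring
  rw [h1] at h
  unfold gE at h ⊢
  linarith

/-- linear form `⟨y, x⟩` -/
noncomputable def Ly (y : EE) : MvPolynomial (Fin d) ℝ := ∑ i, y i • X i

/-- derivative in direction `y` -/
noncomputable def Dy (y : EE) : Derivation ℝ (MvPolynomial (Fin d) ℝ) (MvPolynomial (Fin d) ℝ) :=
  ∑ i, y i • (pderiv i : Derivation ℝ (MvPolynomial (Fin d) ℝ) (MvPolynomial (Fin d) ℝ))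

lemma Dy_apply (y : EE) (p : MvPolynomial (Fin d) ℝ) : Dy y p = ∑ i, y i • pderiv i p := by
  classical
  unfold Dy
  have key : ∀ s : Finset (Fin d),
      (∑ i ∈ s, y i • (pderiv i : Derivation ℝ (MvPolynomial (Fin d) ℝ) (MvPolynomial (Fin d) ℝ))) p
        = ∑ i ∈ s, y i • pderiv i p := by
    intro s
    induction s using Finset.induction_on with
    | empty => simp
    | insert a s ha ih =>
      rw [Finset.sum_insert ha, Finset.sum_insert ha, Derivation.add_apply, ih]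
      rfl
  exact key _

lemma pfun_Ly (y x : EE) : pfun (Ly y) x = inner ℝ y x := by
  simp [pfun, Ly, PiLp.inner_apply, mul_comm, MvPolynomial.smul_eval]




lemma plap_pderiv (i : Fin d) (p : MvPolynomial (Fin d) ℝ) :
    plap (pderiv i p) = pderiv i (plap p) := by
  unfold plap
  rw [map_sum]
  refine Finset.sum_congr rfl fun j _ => ?_
  have hc : ∀ q : MvPolynomial (Fin d) ℝ, pderiv j (pderiv i q) = pderiv i (pderiv j q) := by
    intro q
    ext m
    rw [coeff_pderiv, coeff_pderiv, coeff_pderiv, coeff_pderiv]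
    have e : m + Finsupp.single j 1 + Finsupp.single i 1 = m + Finsupp.single i 1 + Finsupp.single j 1 := by
      rw [add_assoc, add_comm (Finsupp.single j 1), ← add_assoc]
    rw [e]
    by_cases hij : i = j
    · subst hij; ring
    · have h1 : (m + Finsupp.single j 1 : Fin d →₀ ℕ) i = m i := by
        simp [Ne.symm hij]
      have h2 : (m + Finsupp.single i 1 : Fin d →₀ ℕ) j = m j := by
        simp [hij]
      rw [h1, h2]; ring
  rw [hc, hc]


lemma pfun_Dy_self {l : ℕ} {p : MvPolynomial (Fin d) ℝ} (hp : p.IsHomogeneous l) (y : EE) :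
    pfun (Dy y p) y = l * pfun p y := by
  have h1 := hp.sum_X_mul_pderiv
  have h2 : pfun (∑ i, X i * pderiv i p) y = pfun (l • p) y := congrArg (fun q => pfun q y) h1
  rw [pfun_sum] at h2
  rw [Dy_apply, pfun_sum]
  have h3 : pfun (l • p) y = l * pfun p y := by simp [pfun]
  rw [← h3, ← h2]
  refine Finset.sum_congr rfl fun i _ => ?_
  simp [pfun]

lemma gE_harm_pos {l : ℕ} (hl : 0 < l) {p : MvPolynomial (Fin d) ℝ} (hp : Sph.Harm l p) :
    gE p = 0 := by
  have h1 := hp.hom.sum_X_mul_pderiv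
  have h2 : gE (l • p) = 0 := by
    rw [← h1, gE_sum]
    have : ∀ i : Fin d, gE (X i * pderiv i p) = gE (pderiv i (pderiv i p)) := fun i => gE_X_mul i _
    simp only [this]
    rw [← gE_sum]
    have h0 : plap p = 0 := hp.harm
    have h3 : ∑ i, pderiv i (pderiv i p) = (0 : MvPolynomial (Fin d) ℝ) := h0
    rw [h3, gE_zero]
  have h3 : l • p = (l : ℝ) • p := by
    rw [Nat.cast_smul_eq_nsmul]
  rw [h3, gE_smul] at h2
  have : (l : ℝ) ≠ 0 := by exact_mod_cast hl.ne'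
  exact (mul_eq_zero.mp h2).resolve_left this


end Crest.Agent.R086.SH
end

-- ▼ part R086/SHF2
section

/-!
Row 86, spherical harmonics (helper545): Funk–Hecke.
Part 2: polar coordinates, sphere moments, and the relation
`g(ρ θ) p(θ') = g(ρ θ') p(θ)` for `g(y) = ∫_S e^{i⟨y,w⟩} p(w) dσ(w)`.
-/

set_option autoImplicit false

open MvPolynomial Finset MeasureTheory

namespace Crest.Agent.R086.SH

variable {d : ℕ}

local notation "EE" => EuclideanSpace ℝ (Fin d)

/-- polar map -/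
noncomputable def pol (p : Sph d × Set.Ioi (0 : ℝ)) : EE := (p.2 : ℝ) • (p.1 : EE)

/-- radial measure `r^(d-1) dr` -/
noncomputable abbrev nuI (d : ℕ) : Measure (Set.Ioi (0 : ℝ)) := Measure.volumeIoiPow (d - 1)


lemma norm_pol (p : Sph d × Set.Ioi (0 : ℝ)) : ‖pol p‖ = p.2 := by
  unfold pol
  rw [norm_smul]
  have h1 : ‖(p.1 : EE)‖ = 1 := by simp
  have h2 : ‖(p.2 : ℝ)‖ = p.2 := by
    rw [Real.norm_eq_abs, abs_of_pos p.2.2]
  rw [h1, h2, mul_one]


lemma measurePreserving_pol [NeZero d] :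
    MeasurePreserving (pol : Sph d × Set.Ioi (0 : ℝ) → EE) ((sg d).prod (nuI d)) volume := by
  have h1 := (volume : Measure EE).measurePreserving_homeomorphUnitSphereProd
  rw [finrank_euclideanSpace_fin] at h1
  have h2 : MeasurePreserving (homeomorphUnitSphereProd EE).symm ((sg d).prod (nuI d))
      ((volume : Measure EE).comap (Subtype.val : ({0}ᶜ : Set EE) → EE)) :=
    MeasurePreserving.symm (homeomorphUnitSphereProd EE).toMeasurableEquiv h1
  have h3 : MeasurePreserving (Subtype.val : ({0}ᶜ : Set EE) → EE)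
      ((volume : Measure EE).comap (Subtype.val : ({0}ᶜ : Set EE) → EE)) volume := by
    refine ⟨measurable_subtype_coe, ?_⟩
    rw [map_comap_subtype_coe (measurableSet_singleton (0 : EE)).compl]
    have : Nontrivial EE := by
      refine ⟨⟨EuclideanSpace.single 0 1, 0, ?_⟩⟩
      intro h0
      have := congrArg (fun v : EE => v 0) h0
      simp at this
    rw [Measure.restrict_eq_self_of_ae_mem]
    have : (volume : Measure EE) {(0 : EE)} = 0 := measure_singleton _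
    rw [ae_iff]
    simp
  have h4 := h3.comp h2
  have h5 : (Subtype.val ∘ (homeomorphUnitSphereProd EE).symm : Sph d × Set.Ioi (0 : ℝ) → EE) = pol := by
    funext p
    simp [pol]
  rw [h5] at h4
  exact h4

lemma measurableEmbedding_pol : MeasurableEmbedding (pol : Sph d × Set.Ioi (0 : ℝ) → EE) := by
  have h5 : (Subtype.val ∘ (homeomorphUnitSphereProd EE).symm : Sph d × Set.Ioi (0 : ℝ) → EE) = pol := by
    funext p
    simp [pol]
  rw [← h5]
  exact (MeasurableEmbedding.subtype_coe (measurableSet_singleton (0 : EE)).compl).comp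
    (homeomorphUnitSphereProd EE).symm.measurableEmbedding


/-! ### moments -/

lemma integrable_of_exp_bound {f : EE → ℝ} (hf : Continuous f) {C : ℝ} {m : ℕ} (hC : 0 ≤ C)
    (hb : ∀ x, |f x| ≤ C * Real.exp (m * ‖x‖)) : Integrable (fun x : EE => f x * gw x) := by
  have h1 : Integrable (fun x : EE => (C * Real.exp (m ^ 2)) * Real.exp (-(‖x‖ ^ 2 / 4))) :=
    integrable_gauss4.const_mul _
  refine h1.mono' (hf.mul continuous_gw).aestronglyMeasurable
    (Filter.Eventually.of_forall fun x => ?_)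
  rw [Real.norm_eq_abs, abs_mul, abs_of_pos (gw_pos x)]
  calc |f x| * gw x ≤ (C * Real.exp (m * ‖x‖)) * gw x :=
        mul_le_mul_of_nonneg_right (hb x) (gw_pos x).le
    _ = C * Real.exp (m * ‖x‖ - ‖x‖ ^ 2 / 2) := by
      unfold gw; rw [mul_assoc, ← Real.exp_add]; ring_nf
    _ ≤ C * Real.exp ((m : ℝ) ^ 2 - ‖x‖ ^ 2 / 4) := by
      refine mul_le_mul_of_nonneg_left (Real.exp_le_exp.mpr ?_) hC
      nlinarith [sq_nonneg ((m : ℝ) - ‖x‖ / 2)]
    _ = (C * Real.exp (m ^ 2)) * Real.exp (-(‖x‖ ^ 2 / 4)) := by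
      rw [mul_assoc, ← Real.exp_add]; ring_nf

/-- radial Gaussian moment -/
noncomputable def kap (d m : ℕ) : ℝ :=
  ∫ s : Set.Ioi (0 : ℝ), (s : ℝ) ^ m * Real.exp (-((s : ℝ) ^ 2 / 2)) ∂(nuI d)

lemma gw_pol (p : Sph d × Set.Ioi (0 : ℝ)) : gw (pol p) = Real.exp (-((p.2 : ℝ) ^ 2 / 2)) := by
  unfold gw; rw [norm_pol]

lemma gE_hom [NeZero d] {m : ℕ} {q : MvPolynomial (Fin d) ℝ} (hq : q.IsHomogeneous m) :
    gE q = kap d m * ∫ w : Sph d, pfun q w ∂(sg d) := by
  unfold gE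
  rw [← measurePreserving_pol.integral_comp measurableEmbedding_pol]
  have h1 : ∀ p : Sph d × Set.Ioi (0 : ℝ), pfun q (pol p) * gw (pol p) =
      pfun q (p.1 : EE) * ((p.2 : ℝ) ^ m * Real.exp (-((p.2 : ℝ) ^ 2 / 2))) := by
    intro p
    rw [gw_pol]
    unfold pol
    rw [pfun_smul_of_hom hq]
    ring
  simp only [h1]
  rw [integral_prod_mul (fun w : Sph d => pfun q (w : EE))
    (fun s : Set.Ioi (0 : ℝ) => (s : ℝ) ^ m * Real.exp (-((s : ℝ) ^ 2 / 2)))]
  unfold kap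
  ring

lemma kap_ne_zero [NeZero d] (m : ℕ) : kap d m ≠ 0 := by
  intro h0
  have hb : ∀ x : EE, |‖x‖ ^ m| ≤ 1 * Real.exp (m * ‖x‖) := by
    intro x
    rw [abs_of_nonneg (by positivity), one_mul, Real.exp_nat_mul]
    refine pow_le_pow_left₀ (norm_nonneg _) ?_ m
    linarith [Real.add_one_le_exp ‖x‖]
  have hint : Integrable (fun x : EE => ‖x‖ ^ m * gw x) :=
    integrable_of_exp_bound (by fun_prop) zero_le_one hb
  have h1 : ∫ x : EE, ‖x‖ ^ m * gw x = kap d m * ∫ w : Sph d, (1 : ℝ) ∂(sg d) := by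
    rw [← measurePreserving_pol.integral_comp measurableEmbedding_pol]
    have h1 : ∀ p : Sph d × Set.Ioi (0 : ℝ), ‖pol p‖ ^ m * gw (pol p) =
        1 * ((p.2 : ℝ) ^ m * Real.exp (-((p.2 : ℝ) ^ 2 / 2))) := by
      intro p
      rw [gw_pol, norm_pol, one_mul]
    simp only [h1]
    rw [integral_prod_mul (fun _ : Sph d => (1 : ℝ))
      (fun s : Set.Ioi (0 : ℝ) => (s : ℝ) ^ m * Real.exp (-((s : ℝ) ^ 2 / 2)))]
    unfold kap
    ring
  rw [h0, zero_mul] at h1
  have h2 := (integral_eq_zero_iff_of_nonneg (f := fun x : EE => ‖x‖ ^ m * gw x)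
    (fun x => mul_nonneg (by positivity) (gw_pos x).le) hint).mp h1
  have hc : Continuous fun x : EE => ‖x‖ ^ m * gw x := by
    have := continuous_gw (d := d)
    fun_prop
  have h3 : (fun x : EE => ‖x‖ ^ m * gw x) = 0 :=
    (hc.ae_eq_iff_eq volume continuous_zero).mp h2
  have h4 := congrFun h3 (EuclideanSpace.single 0 1)
  simp only [Pi.zero_apply] at h4
  have h5 : ‖(EuclideanSpace.single 0 1 : EE)‖ = 1 := by simp
  rw [h5, one_pow, one_mul] at h4
  exact absurd h4 (gw_pos _).ne'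


/-- sphere moments against a harmonic polynomial -/
noncomputable def Tk (k : ℕ) (p : MvPolynomial (Fin d) ℝ) (y : EE) : ℝ :=
  ∫ w : Sph d, (inner ℝ y (w : EE)) ^ k * pfun p w ∂(sg d)

lemma Ly_pow_hom (y : EE) (k : ℕ) : (Ly y ^ k).IsHomogeneous k := by
  have h1 : (Ly y).IsHomogeneous 1 := by
    unfold Ly
    refine MvPolynomial.IsHomogeneous.sum _ _ _ fun i _ => ?_
    rw [MvPolynomial.smul_eq_C_mul]
    simpa using (MvPolynomial.isHomogeneous_C (Fin d) (y i)).mul (isHomogeneous_X ℝ i)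
  simpa using h1.pow k





end Crest.Agent.R086.SH
end

-- ▼ part N221/Car/Defs

/-!
Row 221, block `Car` (helper34): the Paternain–Salo Carleman argument ("finite degree").

Geometry enters only through a global orthonormal frame `e i` on `ℝⁿ` with connection
coefficients `om i a b = ⟪∇_{e i} e b, e a⟫` (structure `Fr`), a measure `μ` in which
`(D i)^* = -(D i) - dv i`, and the curvature bound (`Fr.Good`).  The unit tangent bundle is
`ℝⁿ × Sph n`; the horizontal derivative is `∇_i = e i - rot (om i)`, the geodesic field is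
`X = ∑ v_i ∇_i`.  Functions polynomial in `v` are elements of `PP n = MvPolynomial (Fin n) (Sm n)`.
The spherical harmonic component of degree `l` of `U x ·` is represented through the FISCHER
product (`Rep`), so `kp n l • P` is the usual `L²(S)` component and `kp n l * fis P P` its norm².

Statements `…S` are proved in `Pol1, Pol2, Pol3, Weitz, Rep1, Rep2, Rep3, Sum, Core, Main`.
-/

set_option autoImplicit false

open MvPolynomial MeasureTheory Function
open scoped ContDiff RealInnerProductSpace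
open Crest.Agent.R086 Crest.Agent.R086.SH

noncomputable section

namespace Crest.Agent.N221.Car

abbrev EE (n : ℕ) := EuclideanSpace ℝ (Fin n)

/-- real polynomials in `v` -/
abbrev P0 (n : ℕ) := MvPolynomial (Fin n) ℝ

/-! ### algebra over a commutative `ℝ`-algebra `A` -/

section alg

variable {n : ℕ} {A : Type} [CommRing A] [Algebra ℝ A]

/-- a derivation of `A` acting on the coefficients -/
def cDl (D : Derivation ℝ A A) : MvPolynomial (Fin n) A →ₗ[ℝ] MvPolynomial (Fin n) A where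
  toFun p := AddMonoidAlgebra.ofCoeff ((AddMonoidAlgebra.coeff p).mapRange D (map_zero D))
  map_add' p q := by
    ext s
    show D (coeff s (p + q)) = coeff s (_ + _)
    rw [coeff_add, coeff_add, map_add]; rfl
  map_smul' c p := by
    ext s
    show D (coeff s (c • p)) = coeff s (c • _)
    rw [coeff_smul, coeff_smul, Derivation.map_smul]; rfl

lemma coeff_cDl (D : Derivation ℝ A A) (p : MvPolynomial (Fin n) A) (s : Fin n →₀ ℕ) :
    coeff s (cDl D p) = D (coeff s p) := rfl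

lemma cDl_monomial (D : Derivation ℝ A A) (s : Fin n →₀ ℕ) (a : A) :
    cDl D (monomial s a) = monomial s (D a) := by
  classical
  ext t
  rw [coeff_cDl, coeff_monomial, coeff_monomial]
  split_ifs <;> simp

lemma cDl_mul (D : Derivation ℝ A A) (p q : MvPolynomial (Fin n) A) :
    cDl D (p * q) = p * cDl D q + q * cDl D p := by
  induction p using MvPolynomial.induction_on' with
  | add p p' hp hp' => rw [add_mul, map_add, map_add, hp, hp']; ring
  | monomial s a =>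
    induction q using MvPolynomial.induction_on' with
    | add q q' hq hq' => rw [mul_add, map_add, map_add, hq, hq']; ring
    | monomial t b =>
      rw [monomial_mul, cDl_monomial, cDl_monomial, cDl_monomial, monomial_mul, monomial_mul,
        Derivation.leibniz, add_comm t s, ← map_add]
      simp

/-- the same as a derivation -/
def cD (D : Derivation ℝ A A) :
    Derivation ℝ (MvPolynomial (Fin n) A) (MvPolynomial (Fin n) A) :=
  Derivation.mk' (cDl D) fun p q => by rw [cDl_mul]; simp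

lemma coeff_cD (D : Derivation ℝ A A) (p : MvPolynomial (Fin n) A) (s : Fin n →₀ ℕ) :
    coeff s (cD D p) = D (coeff s p) := rfl

/-- `p ↦ Dp(v)[w v]` -/
def rot (w : Fin n → Fin n → A) (p : MvPolynomial (Fin n) A) : MvPolynomial (Fin n) A :=
  ∑ a, ∑ b, C (w a b) * (X b * pderiv a p)

/-- the Fischer pairing with values in `A` -/
def fisA (p q : MvPolynomial (Fin n) A) : A :=
  ∑ s ∈ p.support, mfac s • (coeff s p * coeff s q)

/-- `|v|²` -/
def rhoA : MvPolynomial (Fin n) A := ∑ i, X i ^ 2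

/-- harmonic part of `v_i p` for `p` harmonic of degree `l` -/
def Mi (l : ℕ) (i : Fin n) (p : MvPolynomial (Fin n) A) : MvPolynomial (Fin n) A :=
  X i * p - ((n : ℝ) + 2 * l - 2)⁻¹ • (rhoA * pderiv i p)

/-- infinitesimal rotation -/
def Lab (a b : Fin n) (p : MvPolynomial (Fin n) A) : MvPolynomial (Fin n) A :=
  X b * pderiv a p - X a * pderiv b p

/-- algebraic orthonormal frame with its Levi-Civita coefficients -/
structure AFr (n : ℕ) (A : Type) [CommRing A] [Algebra ℝ A] where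
  D : Fin n → Derivation ℝ A A
  om : Fin n → Fin n → Fin n → A
  skew : ∀ i a b, om i a b = -om i b a
  tors : ∀ i j φ, D i (D j φ) - D j (D i φ) = ∑ k, (om i k j - om j k i) * D k φ

namespace AFr

variable (F : AFr n A)

/-- horizontal derivative -/
def nab (i : Fin n) (p : MvPolynomial (Fin n) A) : MvPolynomial (Fin n) A :=
  cD (F.D i) p - rot (F.om i) p

/-- curvature `⟪R(e i, e j) e b, e a⟫` -/
def Om (i j a b : Fin n) : A :=
  F.D i (F.om j a b) - F.D j (F.om i a b) +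
    ∑ c, (F.om i a c * F.om j c b - F.om j a c * F.om i c b) -
    ∑ k, (F.om i k j - F.om j k i) * F.om k a b

/-- divergence of `e i` -/
def dv (i : Fin n) : A := ∑ j, F.om j j i

/-- `δ = ∑ ∂_i ∇_i` -/
def del (p : MvPolynomial (Fin n) A) : MvPolynomial (Fin n) A := ∑ i, pderiv i (F.nab i p)

/-- `∑ v_i ∇_i` -/
def Dv (p : MvPolynomial (Fin n) A) : MvPolynomial (Fin n) A := ∑ i, X i * F.nab i p

/-- its harmonic part on degree `l` -/
def Xp (l : ℕ) (p : MvPolynomial (Fin n) A) : MvPolynomial (Fin n) A := ∑ i, Mi l i (F.nab i p)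

/-- curvature term of the Weitzenböck identity -/
def curv (p : MvPolynomial (Fin n) A) : A :=
  ∑ i, ∑ j, ∑ a, ∑ b, F.Om i j a b * fisA (X b * pderiv a p) (X i * pderiv j p)

/-- the divergence term -/
def W (p : MvPolynomial (Fin n) A) (i : Fin n) : A :=
  ∑ j, (fisA (X j * pderiv i (F.nab j p)) p - fisA (X i * pderiv j (F.nab j p)) p)

end AFr

end alg

/-! ### smooth coefficients -/

/-- smooth functions on `ℝⁿ` -/
def Sm (n : ℕ) : Subalgebra ℝ (EE n → ℝ) where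
  carrier := {f | ContDiff ℝ ∞ f}
  mul_mem' {f g} hf hg := ContDiff.mul (show ContDiff ℝ ∞ f from hf) (show ContDiff ℝ ∞ g from hg)
  add_mem' {f g} hf hg := ContDiff.add (show ContDiff ℝ ∞ f from hf) (show ContDiff ℝ ∞ g from hg)
  algebraMap_mem' c := show ContDiff ℝ ∞ (fun _ : EE n => c) from contDiff_const

/-- polynomials in `v` with smooth coefficients -/
abbrev PP (n : ℕ) := MvPolynomial (Fin n) (Sm n)

variable {n : ℕ}

lemma Sm.sm (φ : Sm n) : ContDiff ℝ ∞ (φ : EE n → ℝ) := φ.2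

/-- evaluation at a base point -/
def evx (x : EE n) : Sm n →+* ℝ := (Pi.evalRingHom (fun _ : EE n => ℝ) x).comp (Sm n).val.toRingHom

lemma evx_apply (x : EE n) (φ : Sm n) : evx x φ = φ.1 x := rfl

/-- the fibre polynomial at `x` -/
def ax (x : EE n) (P : PP n) : P0 n := MvPolynomial.map (evx x) P

/-- derivative along a smooth vector field -/
def dir (e : EE n → EE n) (he : ContDiff ℝ ∞ e) : Derivation ℝ (Sm n) (Sm n) :=
  Derivation.mk'
    { toFun := fun φ => ⟨fun x => fderiv ℝ φ.1 x (e x),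
        ((Sm.sm φ).fderiv_right (m := ∞) (by simp)).clm_apply he⟩
      map_add' := fun φ ψ => by
        ext x
        have h1 := (Sm.sm φ).differentiable (by simp) x
        have h2 := (Sm.sm ψ).differentiable (by simp) x
        show fderiv ℝ (φ.1 + ψ.1) x (e x) = fderiv ℝ φ.1 x (e x) + fderiv ℝ ψ.1 x (e x)
        rw [fderiv_add h1 h2]; rfl
      map_smul' := fun c φ => by
        ext x
        have h1 := (Sm.sm φ).differentiable (by simp) x
        show fderiv ℝ (c • φ.1) x (e x) = c * fderiv ℝ φ.1 x (e x)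
        rw [fderiv_const_smul h1]; rfl }
    fun φ ψ => by
      ext x
      have h1 := (Sm.sm φ).differentiable (by simp) x
      have h2 := (Sm.sm ψ).differentiable (by simp) x
      show fderiv ℝ (φ.1 * ψ.1) x (e x) =
        φ.1 x * fderiv ℝ ψ.1 x (e x) + ψ.1 x * fderiv ℝ φ.1 x (e x)
      rw [fderiv_mul h1 h2]; rfl

lemma dir_apply (e : EE n → EE n) (he : ContDiff ℝ ∞ e) (φ : Sm n) (x : EE n) :
    (dir e he φ).1 x = fderiv ℝ φ.1 x (e x) := rfl

/-- a global orthonormal frame on `ℝⁿ` with its Levi-Civita coefficients -/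
structure Fr (n : ℕ) where
  e : Fin n → EE n → EE n
  e_sm : ∀ i, ContDiff ℝ ∞ (e i)
  om : Fin n → Fin n → Fin n → Sm n
  skew : ∀ i a b, om i a b = -om i b a
  tors : ∀ i j x, fderiv ℝ (e j) x (e i x) - fderiv ℝ (e i) x (e j x) =
    ∑ k, ((om i k j).1 x - (om j k i).1 x) • e k x

namespace Fr

variable (F : Fr n)

lemma fderiv_dir (i : Fin n) (φ : Sm n) (x w : EE n) :
    fderiv ℝ (dir (F.e i) (F.e_sm i) φ).1 x w =
      fderiv ℝ (fderiv ℝ φ.1) x w (F.e i x) + fderiv ℝ φ.1 x (fderiv ℝ (F.e i) x w) := by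
  have h1 : DifferentiableAt ℝ (fderiv ℝ φ.1) x :=
    ((Sm.sm φ).fderiv_right (m := ∞) (by simp)).differentiable (by simp) x
  have h2 : DifferentiableAt ℝ (F.e i) x := (F.e_sm i).differentiable (by simp) x
  show fderiv ℝ (fun y => fderiv ℝ φ.1 y (F.e i y)) x w = _
  rw [fderiv_clm_apply h1 h2]
  simp [add_comm]

/-- the algebraic frame -/
def alg : AFr n (Sm n) where
  D i := dir (F.e i) (F.e_sm i)
  om := F.om
  skew := F.skew
  tors i j φ := by
    ext x
    have hs : IsSymmSndFDerivAt ℝ φ.1 x :=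
      (Sm.sm φ).contDiffAt.isSymmSndFDerivAt (by
        rw [minSmoothness_of_isRCLikeNormedField]; exact WithTop.coe_le_coe.2 le_top)
    have h := congrArg (fderiv ℝ φ.1 x) (F.tors i j x)
    rw [map_sub, map_sum] at h
    have e1 : ((∑ k, (F.om i k j - F.om j k i) * dir (F.e k) (F.e_sm k) φ : Sm n) : EE n → ℝ) x
        = ∑ k, ((F.om i k j).1 x - (F.om j k i).1 x) * fderiv ℝ φ.1 x (F.e k x) := by
      rw [← evx_apply, map_sum]
      rfl
    rw [e1]
    show fderiv ℝ (dir (F.e j) (F.e_sm j) φ).1 x (F.e i x) -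
      fderiv ℝ (dir (F.e i) (F.e_sm i) φ).1 x (F.e j x) = _
    rw [fderiv_dir, fderiv_dir, hs.eq (F.e i x) (F.e j x)]
    simp only [map_smul, smul_eq_mul] at h
    linarith

/-- `om i (x) v` -/
def omv (i : Fin n) (x v : EE n) : EE n := WithLp.toLp 2 fun a => ∑ b, (F.om i a b).1 x * v b

/-- horizontal derivative of a function on `ℝⁿ × ℝⁿ` -/
def nabU (i : Fin n) (U : EE n → EE n → ℝ) (x v : EE n) : ℝ :=
  fderiv ℝ (uncurry U) (x, v) (F.e i x, -F.omv i x v)

/-- the geodesic vector field -/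
def XU (U : EE n → EE n → ℝ) (x v : EE n) : ℝ := ∑ i, v i * F.nabU i U x v

/-- integration by parts and sectional curvature `≤ -κ < 0` -/
structure Good (μ : Measure (EE n)) (κ : ℝ) : Prop where
  fin : IsFiniteMeasureOnCompacts μ
  pos : μ.IsOpenPosMeasure
  ibp : ∀ (i : Fin n) (φ : Sm n), HasCompactSupport φ.1 →
    ∫ x, (F.alg.D i φ + F.alg.dv i * φ).1 x ∂μ = 0
  kap_pos : 0 < κ
  neg : ∀ x v w : EE n, κ * (‖v‖ ^ 2 * ‖w‖ ^ 2 - ⟪v, w⟫ ^ 2) ≤
    ∑ i, ∑ j, ∑ a, ∑ b, (F.alg.Om i j a b).1 x * (v i * w j * w a * v b)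

end Fr

/-- jointly smooth functions of `(x, v)` -/
def SmU (U : EE n → EE n → ℝ) : Prop := ContDiff ℝ ∞ (uncurry U)

/-- integral over the unit sphere -/
def sI (g : EE n → ℝ) : ℝ := ∫ w : Sph n, g w ∂(sg n)

/-- `P` is the (Fischer normalised) harmonic component of degree `l` of `U` -/
def Rep (l : ℕ) (U : EE n → EE n → ℝ) (P : PP n) : Prop :=
  ∀ x, Sph.Harm l (ax x P) ∧
    ∀ p : P0 n, Sph.Harm l p → fis (ax x P) p = sI fun w => U x w * pfun p w

/-- `fis p q = kp n l * ∫_S p q` on harmonic polynomials of degree `l` -/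
def kp (n l : ℕ) : ℝ := kap n (2 * l) / gE (1 : P0 n)

/-- infinitesimal rotation of a function -/
def LU (a b : Fin n) (U : EE n → EE n → ℝ) (x v : EE n) : ℝ :=
  fderiv ℝ (uncurry U) (x, v)
    (0, v b • EuclideanSpace.single a (1 : ℝ) - v a • EuclideanSpace.single b (1 : ℝ))

/-- a symmetry of the family `u` (a deck transformation acting through a constant matrix) -/
structure Sym {ι : Type} [Fintype ι] (μ : Measure (EE n)) (u : ι → EE n → EE n → ℝ) where
  g : EE n ≃ₜ EE n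
  mp : MeasurePreserving g μ μ
  O : EE n → EE n ≃ₗᵢ[ℝ] EE n
  B : ι → ι → ℝ
  eqv : ∀ a x v, ‖v‖ = 1 → u a (g x) (O x v) = ∑ b, B a b * u b x v

/-! ### statements -/

/-- Fischer = Gauss = sphere -/
def Pol1S : Prop := ∀ n : ℕ, 3 ≤ n →
  (∀ p q : P0 n, fis p q = fis q p) ∧ (∀ p : P0 n, 0 ≤ fis p p) ∧
  (∀ p q : P0 n, fis p q ^ 2 ≤ fis p p * fis q q) ∧
  (∀ (c : ℝ) (p q : P0 n), fis (c • p) q = c * fis p q) ∧
  0 < gE (1 : P0 n) ∧
  (∀ (l l' : ℕ) (p q : P0 n), Sph.Harm l p → Sph.Harm l' q → gE (p * q) = gE (1 : P0 n) * fis p q) ∧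
  (∀ (k : ℕ) (g : P0 n), g.IsHomogeneous k → gE (rho * g) = ((n : ℝ) + k) * gE g) ∧
  (∀ l, 0 < kp n l) ∧ (∀ l, kp n (l + 1) = ((n : ℝ) + 2 * l) * kp n l) ∧
  (∀ (l : ℕ) (p q : P0 n), Sph.Harm l p → Sph.Harm l q →
    fis p q = kp n l * sI fun w => pfun p w * pfun q w) ∧
  (∀ (l l' : ℕ) (p q : P0 n), Sph.Harm l p → Sph.Harm l' q → l ≠ l' →
    sI (fun w => pfun p w * pfun q w) = 0)

/-- the operators `∂_i`, `M_i`, `rot`, `L_ab` on harmonic polynomials -/
def Pol2S : Prop := ∀ n : ℕ, 3 ≤ n → ∀ l : ℕ,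
  (∀ (p : P0 n) i, Sph.Harm l p → Sph.Harm (l + 1) (Mi l i p)) ∧
  (∀ (p : P0 n) i, Sph.Harm (l + 1) p → Sph.Harm l (pderiv i p)) ∧
  (∀ (p : P0 n) (w : Fin n → Fin n → ℝ), (∀ a b, w a b = -w b a) → Sph.Harm l p →
    Sph.Harm l (rot w p)) ∧
  (∀ (p : P0 n) a b, Sph.Harm l p → Sph.Harm l (Lab a b p)) ∧
  (∀ p : P0 n, Sph.Harm l p →
    ∑ a, ∑ b, Lab a b (Lab a b p) = (-(2 * ((l : ℝ) * (l + n - 2)))) • p) ∧
  (∀ p : P0 n, p.IsHomogeneous l → ∑ i, fis (pderiv i p) (pderiv i p) = l * fis p p) ∧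
  (∀ p : P0 n, Sph.Harm l p → ∑ i, fis (Mi l i p) (Mi l i p) ≤ ((n : ℝ) + l) * fis p p) ∧
  (∀ w : Fin n → P0 n, (∀ i, Sph.Harm l (w i)) →
    fis (∑ i, X i * w i) (∑ i, X i * w i) = fis (∑ i, Mi l i (w i)) (∑ i, Mi l i (w i)) +
      2 / ((n : ℝ) + 2 * l - 2) * fis (∑ i, pderiv i (w i)) (∑ i, pderiv i (w i)))

/-- sign of the curvature term; orthogonal substitutions -/
def Pol3S : Prop := ∀ n : ℕ, 3 ≤ n →
  (∀ (Ω : Fin n → Fin n → Fin n → Fin n → ℝ) (κ : ℝ) (l : ℕ) (p : P0 n),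
    (∀ i j a b, Ω i j a b = -Ω j i a b) → (∀ i j a b, Ω i j a b = -Ω i j b a) →
    (∀ v w : EE n, κ * (‖v‖ ^ 2 * ‖w‖ ^ 2 - ⟪v, w⟫ ^ 2) ≤
      ∑ i, ∑ j, ∑ a, ∑ b, Ω i j a b * (v i * w j * w a * v b)) → Sph.Harm l p →
    κ * ((l : ℝ) * (l + n - 2)) * fis p p ≤
      ∑ i, ∑ j, ∑ a, ∑ b, Ω i j a b * fis (X b * pderiv a p) (X i * pderiv j p)) ∧
  (∀ (O : EE n ≃ₗᵢ[ℝ] EE n) (l : ℕ) (p : P0 n), Sph.Harm l p →
    ∃ q : P0 n, Sph.Harm l q ∧ ∀ v, pfun q v = pfun p (O v)) ∧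
  (∀ (O : EE n ≃ₗᵢ[ℝ] EE n) (g : EE n → ℝ), sI (fun w => g (O w)) = sI g)

/-- the Weitzenböck (Pestov) identity, purely algebraic -/
def WeitzS : Prop := ∀ (n : ℕ) (A : Type) [CommRing A] [Algebra ℝ A] (F : AFr n A),
  (∀ i j a b, F.Om i j a b = -F.Om j i a b) ∧ (∀ i j a b, F.Om i j a b = -F.Om i j b a) ∧
  (∀ i (p q : MvPolynomial (Fin n) A),
    F.D i (fisA p q) = fisA (F.nab i p) q + fisA p (F.nab i q)) ∧
  ∀ p : MvPolynomial (Fin n) A, fisA (F.Dv p) (F.Dv p) =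
    ∑ i, fisA (F.nab i p) (F.nab i p) + fisA (F.del p) (F.del p) + F.curv p +
      ∑ i, (F.D i (F.W p i) + F.dv i * F.W p i)

/-- evaluation at a point; existence, uniqueness and linear rules for `Rep` -/
def Rep1S : Prop := ∀ n : ℕ, 3 ≤ n →
  (∀ (x : EE n) (P Q : PP n), (fisA P Q).1 x = fis (ax x P) (ax x Q)) ∧
  (∀ P Q : PP n, (∀ x, ax x P = ax x Q) → P = Q) ∧
  (∀ (x : EE n) l i (P : PP n), ax x (Mi l i P) = Mi l i (ax x P)) ∧
  (∀ l (U : EE n → EE n → ℝ), SmU U → ∃ P, Rep l U P) ∧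
  (∀ l (U V : EE n → EE n → ℝ) (P Q : PP n), Rep l U P → Rep l V Q →
    ∀ x, (∀ v, ‖v‖ = 1 → U x v = V x v) → ax x P = ax x Q) ∧
  (∀ l (U : EE n → EE n → ℝ) (P : PP n) (φ : Sm n), Rep l U P →
    Rep l (fun x v => φ.1 x * U x v) (C φ * P)) ∧
  (∀ l (ι : Type) (s : Finset ι) (U : ι → EE n → EE n → ℝ) (P : ι → PP n),
    (∀ a ∈ s, SmU (U a)) → (∀ a ∈ s, Rep l (U a) (P a)) →
    Rep l (fun x v => ∑ a ∈ s, U a x v) (∑ a ∈ s, P a)) ∧
  (∀ l i (U : EE n → EE n → ℝ) (P Q : PP n), SmU U → Rep l U P → Rep (l + 2) U Q →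
    Rep (l + 1) (fun x v => v i * U x v) (pderiv i Q + ((n : ℝ) + 2 * l)⁻¹ • Mi l i P))

/-- `Rep` commutes with `∇_i` and with rotations -/
def Rep2S : Prop := ∀ n : ℕ, 3 ≤ n → ∀ (U : EE n → EE n → ℝ), SmU U →
  (∀ a b, SmU (LU a b U) ∧ ∀ l P, Rep l U P → Rep l (LU a b U) (Lab a b P)) ∧
  ∀ (F : Fr n) i, SmU (F.nabU i U) ∧ ∀ l P, Rep l U P → Rep l (F.nabU i U) (F.alg.nab i P)

/-- decay of the components, completeness, invariance -/
def Rep3S : Prop := ∀ n : ℕ, 3 ≤ n →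
  (∀ (U : EE n → EE n → ℝ), SmU U → ∀ N : ℕ, ∃ V : EE n → EE n → ℝ, SmU V ∧
    (∀ x, (∀ v, U x v = 0) → ∀ v, V x v = 0) ∧
    ∀ l P, Rep l U P → ∀ x,
      (l : ℝ) ^ N * (kp n l * fis (ax x P) (ax x P)) ≤ sI fun w => V x w ^ 2) ∧
  (∀ (U : EE n → EE n → ℝ) (P : ℕ → PP n) (D : ℕ) (x : EE n), SmU U → (∀ l, Rep l U (P l)) →
    (∀ l, D ≤ l → ax x (P l) = 0) →
    ∀ v, ‖v‖ = 1 → U x v = ∑ l ∈ Finset.range D, kp n l * pfun (ax x (P l)) v) ∧
  (∀ (ι : Type) [Fintype ι] (μ : Measure (EE n)) (u : ι → EE n → EE n → ℝ) (s : Sym μ u),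
    (∀ a, SmU (u a)) → ∃ K : ℝ, 0 ≤ K ∧ ∀ l (P : ι → PP n), (∀ a, Rep l (u a) (P a)) → ∀ x,
      ∑ a, fis (ax (s.g x) (P a)) (ax (s.g x) (P a)) ≤ K * ∑ a, fis (ax x (P a)) (ax x (P a)))

/-- the weighted summation -/
def SumS : Prop := ∀ (b m : ℕ → ℝ) (κ K : ℝ), 0 < κ → 0 ≤ K → (∀ l, 0 ≤ b l) → (∀ l, 0 ≤ m l) →
  (∀ N : ℕ, ∃ B : ℝ, ∀ l : ℕ, (l : ℝ) ^ N * b l ≤ B ∧ (l : ℝ) ^ N * m l ≤ B) →
  (∀ T : ℝ, 1 ≤ T → ∀ l : ℕ, 1 ≤ l → (1 - 2 / (l : ℝ)) * b l + κ * l * m l ≤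
    (1 + T / l) * b (l + 2) + (1 + l / T) * K * (m l + m (l + 1) + m (l + 2))) →
  ∃ D : ℕ, ∀ l, D ≤ l → m l = 0

/-- the Carleman argument for one cut-off `χ` -/
def CoreS : Prop := ∀ n : ℕ, 3 ≤ n → ∀ (F : Fr n) (μ : Measure (EE n)) (κ : ℝ), F.Good μ κ →
  ∀ (ι : Type) [Fintype ι] (u : ι → EE n → EE n → ℝ) (k : ℝ) (P : ι → ℕ → PP n) (χ : Sm n),
  (∀ a, SmU (u a)) → (∀ a x v, ‖v‖ = 1 → F.XU (u a) x v = k * u a x v) →
  (∀ a l, Rep l (u a) (P a l)) → HasCompactSupport χ.1 →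
  (∃ K : ℝ, ∀ l,
    ∫ x, (∑ i, (F.alg.D i χ).1 x ^ 2) * ∑ a, fis (ax x (P a l)) (ax x (P a l)) ∂μ ≤
      K * ∫ x, χ.1 x ^ 2 * ∑ a, fis (ax x (P a l)) (ax x (P a l)) ∂μ) →
  ∃ D : ℕ, ∀ a l x, D ≤ l → χ.1 x ≠ 0 → ax x (P a l) = 0

/-- FINITE DEGREE: an equivariant family of solutions of `X u = k u` is polynomial in `v`. -/
def CarS : Prop := ∀ n : ℕ, 3 ≤ n → ∀ (F : Fr n) (μ : Measure (EE n)) (κ : ℝ), F.Good μ κ →
  ∀ (ι : Type) [Fintype ι] (u : ι → EE n → EE n → ℝ) (k : ℝ),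
  (∀ a x v, ‖v‖ = 1 → ContDiffAt ℝ ∞ (uncurry (u a)) (x, v)) →
  (∀ a x v, ‖v‖ = 1 → F.XU (u a) x v = k * u a x v) →
  (∃ R : ℝ, ∀ x, ∃ (s : Sym μ u) (y : EE n), ‖y‖ < R ∧ s.g y = x) →
  ∃ (D : ℕ) (P : ι → ℕ → PP n), (∀ a l x, Sph.Harm l (ax x (P a l))) ∧
    ∀ a x v, ‖v‖ = 1 → u a x v = ∑ l ∈ Finset.range D, pfun (ax x (P a l)) v

end Crest.Agent.N221.Car
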