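import Crest.Agent.N221.Car.Defs
import Crest.Agent.R070.RotInv_260
import Crest.Agent.N221.Car.Core0

-- ▼ part N221/Car/Pol1
section

/-!
Row 221, block `Car`: Fischer product = Gaussian product = sphere product (`Pol1S`).
-/

set_option autoImplicit false

open MvPolynomial MeasureTheory Function
open scoped ContDiff RealInnerProductSpace
open Crest.Agent.R086 Crest.Agent.R086.SH

noncomputable section

namespace Crest.Agent.N221.Car

namespace Pol1

variable {n : ℕ}

lemma fis_comm (p q : P0 n) : fis p q = fis q p := by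
  classical
  rw [fis_eq_of_subset p q (S := p.support ∪ q.support) Finset.subset_union_left,
    fis_eq_of_subset q p (S := p.support ∪ q.support) Finset.subset_union_right]
  exact Finset.sum_congr rfl fun a _ => by ring

lemma fis_nonneg (p : P0 n) : 0 ≤ fis p p :=
  Finset.sum_nonneg fun a _ => by
    rw [mul_assoc]; exact mul_nonneg (mfac_pos a).le (mul_self_nonneg _)

lemma fis_cs (p q : P0 n) : fis p q ^ 2 ≤ fis p p * fis q q := by
  classical
  rw [fis_eq_of_subset p q (S := p.support ∪ q.support) Finset.subset_union_left,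
    fis_eq_of_subset p p (S := p.support ∪ q.support) Finset.subset_union_left,
    fis_eq_of_subset q q (S := p.support ∪ q.support) Finset.subset_union_right]
  refine Finset.sum_sq_le_sum_mul_sum_of_sq_le_mul _ (fun a _ => ?_) (fun a _ => ?_)
    (fun a _ => le_of_eq (by ring))
  · rw [mul_assoc]; exact mul_nonneg (mfac_pos a).le (mul_self_nonneg _)
  · rw [mul_assoc]; exact mul_nonneg (mfac_pos a).le (mul_self_nonneg _)

lemma fis_smul_right (c : ℝ) (p q : P0 n) : fis p (c • q) = c * fis p q := by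
  unfold fis
  rw [Finset.mul_sum]
  refine Finset.sum_congr rfl fun a _ => ?_
  rw [coeff_smul, smul_eq_mul]; ring

lemma fis_smul_left (c : ℝ) (p q : P0 n) : fis (c • p) q = c * fis p q := by
  rw [fis_comm, fis_smul_right, fis_comm]

lemma gE_one_pos : 0 < gE (1 : P0 n) := by
  unfold gE
  have h : (fun x : EE n => pfun (1 : P0 n) x * gw x) = gw := by
    funext x; simp [pfun]
  have hi := integrable_pfun_gw (1 : P0 n)
  rw [h] at hi ⊢
  rw [integral_pos_iff_support_of_nonneg (fun x => (gw_pos x).le) hi]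
  have : support (gw : EE n → ℝ) = Set.univ := by
    ext x; simp [(gw_pos x).ne']
  rw [this]
  exact isOpen_univ.measure_pos _ Set.univ_nonempty

lemma fis_deg {l l' : ℕ} {p q : P0 n} (hp : p.IsHomogeneous l) (hq : q.IsHomogeneous l')
    (h : l ≠ l') : fis p q = 0 := by
  unfold fis
  refine Finset.sum_eq_zero fun a ha => ?_
  have h1 : a.degree = l := by
    by_contra hne
    exact (mem_support_iff.1 ha) (hp.coeff_eq_zero hne)
  rw [hq.coeff_eq_zero (by rw [h1]; exact h), mul_zero]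

lemma harm_pderiv {l : ℕ} {p : P0 n} (hp : Sph.Harm l p) (i : Fin n) :
    Sph.Harm (l - 1) (pderiv i p) := by
  have h0 : plap p = 0 := hp.harm
  refine ⟨hp.hom.pderiv, ?_⟩
  show plap (pderiv i p) = 0
  rw [plap_pderiv, h0, map_zero]

lemma eq_C_of_hom0 {q : P0 n} (hq : q.IsHomogeneous 0) : q = C (coeff 0 q) := by
  rwa [← totalDegree_zero_iff_isHomogeneous, totalDegree_eq_zero_iff_eq_C] at hq

lemma gE_mul_zero {l : ℕ} {p q : P0 n} (hp : Sph.Harm l p) (hq : q.IsHomogeneous 0) :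
    gE (p * q) = gE (1 : P0 n) * fis p q := by
  rcases Nat.eq_zero_or_pos l with rfl | hl
  · have hp0 := eq_C_of_hom0 hp.hom
    have hq0 := eq_C_of_hom0 hq
    have e1 : p * q = (coeff 0 p * coeff 0 q) • (1 : P0 n) := by
      conv_lhs => rw [hp0, hq0]
      rw [← C_mul, smul_eq_C_mul, mul_one]
    have e2 : fis p q = coeff 0 p * coeff 0 q := by
      rw [fis_eq_of_subset p q (S := {0})]
      · simp [mfac]
      · intro a ha
        rw [Finset.mem_singleton]
        by_contra hne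
        apply mem_support_iff.1 ha
        rw [hp0, coeff_C, if_neg (Ne.symm hne)]
    rw [e1, e2, gE_smul, mul_comm]
  · have hq0 := eq_C_of_hom0 hq
    have e1 : p * q = coeff 0 q • p := by
      conv_lhs => rw [hq0]
      rw [smul_eq_C_mul, mul_comm]
    rw [e1, gE_smul, gE_harm_pos hl hp, fis_deg hp.hom hq hl.ne', mul_zero, mul_zero]

lemma euler {k : ℕ} {q : P0 n} (hq : q.IsHomogeneous k) :
    ∑ i, X i * pderiv i q = (k : ℝ) • q := by
  rw [hq.sum_X_mul_pderiv, Nat.cast_smul_eq_nsmul]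

lemma gE_mul (l' : ℕ) : ∀ (l : ℕ) (p q : P0 n), Sph.Harm l p → Sph.Harm l' q →
    gE (p * q) = gE (1 : P0 n) * fis p q := by
  induction l' with
  | zero => intro l p q hp hq; exact gE_mul_zero hp hq.hom
  | succ k ih =>
    intro l p q hp hq
    have hk : ((k + 1 : ℕ) : ℝ) ≠ 0 := by positivity
    have h0 : ∑ i, pderiv i (pderiv i q) = 0 := hq.harm
    have e1 : ((k + 1 : ℕ) : ℝ) * gE (p * q) = ∑ i, gE (pderiv i p * pderiv i q) := by
      rw [← gE_smul, ← mul_smul_comm, ← euler hq.hom, Finset.mul_sum, gE_sum]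
      have : ∀ i : Fin n, gE (p * (X i * pderiv i q)) =
          gE (pderiv i p * pderiv i q) + gE (p * pderiv i (pderiv i q)) := by
        intro i
        rw [mul_left_comm, gE_X_mul, pderiv_mul, gE_add]
      simp only [this]
      rw [Finset.sum_add_distrib, ← gE_sum Finset.univ fun i => p * pderiv i (pderiv i q),
        ← Finset.mul_sum, h0, mul_zero, gE_zero, add_zero]
    have e2 : ((k + 1 : ℕ) : ℝ) * fis p q = ∑ i, fis (pderiv i p) (pderiv i q) := by
      rw [← fis_smul_right, ← euler hq.hom, fis_sum_right]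
      refine Finset.sum_congr rfl fun i _ => ?_
      rw [fis_comm, fis_X_mul, fis_comm]
    apply mul_left_cancel₀ hk
    rw [e1, mul_left_comm, e2, Finset.mul_sum]
    exact Finset.sum_congr rfl fun i _ =>
      ih (l - 1) _ _ (harm_pderiv hp i) (harm_pderiv hq i)

lemma gE_rho_mul {k : ℕ} {g : P0 n} (hg : g.IsHomogeneous k) :
    gE (rho * g) = ((n : ℝ) + k) * gE g := by
  unfold rho
  rw [Finset.sum_mul, gE_sum]
  have : ∀ i : Fin n, gE (X i ^ 2 * g) = gE g + gE (X i * pderiv i g) := by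
    intro i
    rw [pow_two, mul_assoc, gE_X_mul, pderiv_mul, pderiv_X_self, one_mul, gE_add]
  simp only [this]
  rw [Finset.sum_add_distrib, ← gE_sum Finset.univ fun i => X i * pderiv i g, euler hg, gE_smul]
  simp
  ring

lemma kap_pos [NeZero n] (m : ℕ) : 0 < kap n m := by
  refine lt_of_le_of_ne ?_ (kap_ne_zero m).symm
  unfold kap
  refine integral_nonneg fun s => ?_
  have : (0 : ℝ) < s := s.2
  positivity

lemma rho_pow_hom (l : ℕ) : ((rho : P0 n) ^ l).IsHomogeneous (2 * l) := rho_hom.pow l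

lemma gE_rho_pow [NeZero n] (l : ℕ) :
    gE ((rho : P0 n) ^ l) = kap n (2 * l) * ∫ _ : Sph n, (1 : ℝ) ∂(sg n) := by
  rw [gE_hom (rho_pow_hom l)]
  congr 1
  refine integral_congr_ae (Filter.Eventually.of_forall fun w => ?_)
  have h := pfun_rho_sph w
  simp only [pfun] at h ⊢
  rw [map_pow, h, one_pow]

lemma kap_succ [NeZero n] (l : ℕ) :
    kap n (2 * (l + 1)) = ((n : ℝ) + 2 * l) * kap n (2 * l) := by
  have h1 : (∫ _ : Sph n, (1 : ℝ) ∂(sg n)) ≠ 0 := by
    intro h
    have := gE_rho_pow (n := n) 0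
    rw [h, mul_zero, pow_zero] at this
    exact gE_one_pos.ne' this
  apply mul_right_cancel₀ h1
  rw [← gE_rho_pow, mul_assoc, ← gE_rho_pow, pow_succ', gE_rho_mul (rho_pow_hom l)]
  push_cast
  ring

lemma gE_sI [NeZero n] {l l' : ℕ} {p q : P0 n} (hp : p.IsHomogeneous l)
    (hq : q.IsHomogeneous l') :
    gE (p * q) = kap n (l + l') * sI fun w => pfun p w * pfun q w := by
  rw [gE_hom (hp.mul hq)]
  simp only [pfun_mul, sI]

end Pol1

open Pol1 in
theorem pol1S : Pol1S := by
  intro n hn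
  have : NeZero n := ⟨by omega⟩
  refine ⟨fis_comm, fis_nonneg, fis_cs, fis_smul_left, gE_one_pos,
    fun l l' p q hp hq => gE_mul l' l p q hp hq, fun k g hg => gE_rho_mul hg,
    fun l => div_pos (kap_pos _) gE_one_pos, fun l => ?_, fun l p q hp hq => ?_,
    fun l l' p q hp hq hne => ?_⟩
  · unfold kp
    rw [kap_succ, mul_div_assoc]
  · have h1 := gE_mul l l p q hp hq
    rw [gE_sI hp.hom hq.hom, ← two_mul] at h1
    unfold kp
    rw [div_mul_eq_mul_div, h1, mul_div_cancel_left₀ _ gE_one_pos.ne']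
  · have h1 := gE_mul l' l p q hp hq
    rw [gE_sI hp.hom hq.hom, fis_deg hp.hom hq.hom hne, mul_zero] at h1
    exact (mul_eq_zero.1 h1).resolve_left (kap_ne_zero _)

end Crest.Agent.N221.Car
end
end

-- ▼ part N221/Car/Pol2
section

/-!
Row 221, block `Car`: the operators `∂_i`, `M_i`, `rot`, `L_ab` on harmonic polynomials (helper38).
-/

set_option autoImplicit false

open MvPolynomial
open Crest.Agent.R086 Crest.Agent.R086.SH

noncomputable section

namespace Crest.Agent.N221.Car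

namespace Pol2

variable {n l : ℕ} {p : P0 n}

lemma pd_comm (i j : Fin n) (q : P0 n) : pderiv j (pderiv i q) = pderiv i (pderiv j q) := by
  ext m
  rw [coeff_pderiv, coeff_pderiv, coeff_pderiv, coeff_pderiv, add_right_comm]
  by_cases hij : i = j
  · rw [hij]
  · simp only [Finsupp.add_apply, Finsupp.single_eq_of_ne hij, Finsupp.single_eq_of_ne' hij, add_zero]
    ring

lemma pd_X_mul (i j : Fin n) (q : P0 n) :
    pderiv i (X j * q) = (if i = j then q else 0) + X j * pderiv i q := by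
  rw [pderiv_mul]
  by_cases h : i = j
  · rw [if_pos h, h, pderiv_X_self, one_mul]
  · rw [if_neg h, pderiv_X_of_ne (Ne.symm h), zero_mul]

/-- the Euler operator -/
def eul (q : P0 n) : P0 n := ∑ j, X j * pderiv j q

lemma eul_hom (hp : p.IsHomogeneous l) : eul p = (l : ℝ) • p := by
  rw [eul, hp.sum_X_mul_pderiv, Nat.cast_smul_eq_nsmul]

lemma eul_pd (hp : p.IsHomogeneous l) (i : Fin n) : eul (pderiv i p) = ((l : ℝ) - 1) • pderiv i p := by
  have h := congrArg (pderiv i) (eul_hom hp)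
  rw [eul, map_sum, Derivation.map_smul] at h
  simp only [pd_X_mul, Finset.sum_add_distrib, Finset.sum_ite_eq, Finset.mem_univ, if_true] at h
  rw [sub_smul, one_smul, ← h, add_sub_cancel_left, eul]
  exact Finset.sum_congr rfl fun j _ => by rw [pd_comm]

lemma eul_sum {ι : Type} (s : Finset ι) (f : ι → P0 n) : eul (∑ i ∈ s, f i) = ∑ i ∈ s, eul (f i) := by
  simp only [eul, map_sum, Finset.mul_sum]
  exact Finset.sum_comm

lemma plap_sum {ι : Type} (s : Finset ι) (f : ι → P0 n) :
    plap (∑ i ∈ s, f i) = ∑ i ∈ s, plap (f i) := by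
  simp only [plap, map_sum]
  exact Finset.sum_comm

lemma plap_X_mul (i : Fin n) (q : P0 n) :
    plap (X i * q) = (2 : ℝ) • pderiv i q + X i * plap q := by
  have h : ∀ j, pderiv j (if j = i then q else 0) = if j = i then pderiv j q else 0 := fun j => by
    split_ifs <;> simp
  simp only [plap, pd_X_mul, map_add, h, Finset.sum_add_distrib, Finset.sum_ite_eq', Finset.mem_univ,
    if_true, Finset.mul_sum, two_smul, add_assoc]

lemma rho_mul (g : P0 n) : rho * g = ∑ j, X j * (X j * g) := by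
  simp only [rho, Finset.sum_mul, sq, mul_assoc]

lemma plap_rho_mul (g : P0 n) :
    plap (rho * g) = (2 * n : ℝ) • g + (4 : ℝ) • eul g + rho * plap g := by
  have h : ∀ j : Fin n, plap (X j * (X j * g)) =
      (2 : ℝ) • g + (4 : ℝ) • (X j * pderiv j g) + X j * (X j * plap g) := fun j => by
    rw [plap_X_mul, plap_X_mul, pd_X_mul, if_pos rfl, mul_add, mul_smul_comm]
    module
  rw [rho_mul, plap_sum, rho_mul, eul]
  simp only [h, Finset.sum_add_distrib, Finset.sum_const, Finset.card_univ, Fintype.card_fin,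
    ← Finset.smul_sum, ← Nat.cast_smul_eq_nsmul ℝ, smul_smul, mul_comm (n : ℝ)]

lemma pd_zero (hp : p.IsHomogeneous 0) (i : Fin n) : pderiv i p = 0 := by
  rw [← totalDegree_zero_iff_isHomogeneous] at hp
  rw [totalDegree_eq_zero_iff_eq_C.mp hp, pderiv_C]

lemma hom_X_mul (hp : p.IsHomogeneous l) (i : Fin n) : (X i * p).IsHomogeneous (l + 1) := by
  rw [add_comm]; exact (isHomogeneous_X ℝ i).mul hp

lemma hom_X_pd (hp : p.IsHomogeneous l) (a b : Fin n) : (X b * pderiv a p).IsHomogeneous l := by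
  cases l with
  | zero => rw [pd_zero hp, mul_zero]; exact isHomogeneous_zero _ _ _
  | succ l => exact hom_X_mul (hp.pderiv (i := a)) b

lemma hom_smul (hp : p.IsHomogeneous l) (c : ℝ) : (c • p).IsHomogeneous l := by
  rw [smul_eq_C_mul]; exact hp.C_mul c

lemma plap_pd (hp : Sph.Harm l p) (i : Fin n) : plap (pderiv i p) = 0 := by
  rw [plap_pderiv, show plap p = 0 from hp.harm, map_zero]

lemma plap_X_pd (hp : Sph.Harm l p) (a b : Fin n) :
    plap (X b * pderiv a p) = (2 : ℝ) • pderiv b (pderiv a p) := by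
  rw [plap_X_mul, plap_pd hp, mul_zero, add_zero]

lemma den_pos (hn : 3 ≤ n) (l : ℕ) : 0 < (n : ℝ) + 2 * l - 2 := by
  have h1 : (3 : ℝ) ≤ n := by exact_mod_cast hn
  have h2 : (0 : ℝ) ≤ l := Nat.cast_nonneg l
  linarith

lemma Mi_eq (l : ℕ) (i : Fin n) (p : P0 n) :
    Mi l i p = X i * p - ((n : ℝ) + 2 * l - 2)⁻¹ • (rho * pderiv i p) := rfl

lemma harm_Mi (hn : 3 ≤ n) (hp : Sph.Harm l p) (i : Fin n) : Sph.Harm (l + 1) (Mi l i p) := by
  rw [Mi_eq]
  refine ⟨(hom_X_mul hp.hom i).sub (hom_smul ?_ _), ?_⟩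
  · rw [rho_mul]
    exact IsHomogeneous.sum _ _ _ fun j _ => hom_X_mul (hom_X_pd hp.hom i j) j
  · show plap _ = 0
    rw [plap_sub, plap_smul, plap_X_mul, plap_rho_mul, eul_pd hp.hom, plap_pd hp,
      show plap p = 0 from hp.harm, mul_zero, mul_zero, add_zero, add_zero, smul_smul, ← add_smul,
      smul_smul, ← sub_smul]
    have := (den_pos hn l).ne'
    rw [show 2 - ((n : ℝ) + 2 * l - 2)⁻¹ * (2 * n + 4 * (l - 1)) = 0 by field_simp; ring, zero_smul]

lemma harm_rot {w : Fin n → Fin n → ℝ} (hw : ∀ a b, w a b = -w b a) (hp : Sph.Harm l p) :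
    Sph.Harm l (rot w p) := by
  refine ⟨IsHomogeneous.sum _ _ _ fun a _ => IsHomogeneous.sum _ _ _ fun b _ =>
    (hom_X_pd hp.hom a b).C_mul _, ?_⟩
  show plap _ = 0
  simp only [rot, ← smul_eq_C_mul, plap_sum, plap_smul, plap_X_pd hp]
  have h : ∑ a, ∑ b, w a b • (2 : ℝ) • pderiv b (pderiv a p) =
      -∑ a, ∑ b, w a b • (2 : ℝ) • pderiv b (pderiv a p) := by
    conv_lhs => rw [Finset.sum_comm]
    simp only [← Finset.sum_neg_distrib]
    exact Finset.sum_congr rfl fun a _ => Finset.sum_congr rfl fun b _ => by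
      rw [hw b a, neg_smul, pd_comm]
  exact self_eq_neg.1 h

lemma harm_Lab (hp : Sph.Harm l p) (a b : Fin n) : Sph.Harm l (Lab a b p) := by
  refine ⟨(hom_X_pd hp.hom a b).sub (hom_X_pd hp.hom b a), ?_⟩
  show plap (_ - _) = 0
  rw [plap_sub, plap_X_pd hp, plap_X_pd hp, pd_comm, sub_self]

lemma div_Lab (hp : Sph.Harm l p) (b : Fin n) :
    ∑ a, pderiv a (Lab a b p) = (2 - (n : ℝ) - l) • pderiv b p := by
  have h1 := eul_pd hp.hom b
  have h2 : ∑ a, pderiv a (pderiv a p) = 0 := hp.harm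
  rw [eul] at h1
  simp only [Lab, map_sub, pd_X_mul, if_true, Finset.sum_sub_distrib, Finset.sum_add_distrib,
    Finset.sum_ite_eq', Finset.mem_univ, ← Finset.mul_sum, h1, h2, Finset.sum_const, Finset.card_univ,
    Fintype.card_fin, ← Nat.cast_smul_eq_nsmul ℝ, mul_zero]
  module

lemma sum_Lab (hp : Sph.Harm l p) :
    ∑ a, ∑ b, Lab a b (Lab a b p) = (-(2 * ((l : ℝ) * (l + n - 2)))) • p := by
  have h : ∀ a b, Lab a b (Lab a b p) =
      X b * pderiv a (Lab a b p) + X a * pderiv b (Lab b a p) := fun a b => by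
    rw [show Lab b a p = -Lab a b p from (neg_sub _ _).symm, map_neg, mul_neg, ← sub_eq_add_neg]
    rfl
  have h1 : ∑ b, ∑ a, X b * pderiv a (Lab a b p) = ((2 - (n : ℝ) - l) * l) • p := by
    simp only [← Finset.mul_sum, div_Lab hp, mul_smul_comm, ← Finset.smul_sum]
    rw [show ∑ b, X b * pderiv b p = _ from eul_hom hp.hom, smul_smul]
  simp only [h, Finset.sum_add_distrib]
  rw [h1, Finset.sum_comm, h1]
  module

lemma fis_comm (p q : P0 n) : fis p q = fis q p := by
  classical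
  rw [fis_eq_of_subset p q (S := p.support ∪ q.support) Finset.subset_union_left,
    fis_eq_of_subset q p (S := p.support ∪ q.support) Finset.subset_union_right]
  exact Finset.sum_congr rfl fun a _ => by ring

lemma fis_smul_right (c : ℝ) (p q : P0 n) : fis p (c • q) = c * fis p q := by
  simp only [fis, coeff_smul, smul_eq_mul, Finset.mul_sum]
  exact Finset.sum_congr rfl fun a _ => by ring

lemma fis_smul_left (c : ℝ) (p q : P0 n) : fis (c • p) q = c * fis p q := by
  rw [fis_comm, fis_smul_right, fis_comm]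

lemma fis_add_right (p q q' : P0 n) : fis p (q + q') = fis p q + fis p q' := by
  rw [fis_comm, fis_add_left, fis_comm q, fis_comm q']

lemma fis_nonneg (p : P0 n) : 0 ≤ fis p p :=
  Finset.sum_nonneg fun a _ => by
    rw [mul_assoc]; exact mul_nonneg (mfac_pos a).le (mul_self_nonneg _)

lemma pyth {M : P0 n} (hM : plap M = 0) (c : ℝ) (g : P0 n) :
    fis (M + c • (rho * g)) (M + c • (rho * g)) = fis M M + c ^ 2 * fis (rho * g) (rho * g) := by
  have h : fis (rho * g) M = 0 := by rw [fis_rho_mul, hM, fis_zero_right]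
  rw [fis_add_left, fis_add_right, fis_add_right, fis_smul_right, fis_smul_left, fis_smul_left,
    fis_smul_right, fis_comm M (rho * g), h]
  ring

lemma sum_fis_pd (hp : p.IsHomogeneous l) : ∑ i, fis (pderiv i p) (pderiv i p) = l * fis p p := by
  simp only [← fis_X_mul]
  rw [← fis_sum_left, show ∑ b, X b * pderiv b p = _ from eul_hom hp, fis_smul_left]

lemma sum_fis_Mi (hn : 3 ≤ n) (hp : Sph.Harm l p) :
    ∑ i, fis (Mi l i p) (Mi l i p) ≤ ((n : ℝ) + l) * fis p p := by
  have h : ∑ i, fis (X i * p) (X i * p) = ((n : ℝ) + l) * fis p p := by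
    simp only [fis_X_mul, pd_X_mul, if_true, fis_add_right, Finset.sum_add_distrib, Finset.sum_const,
      Finset.card_univ, Fintype.card_fin, nsmul_eq_mul]
    rw [← fis_sum_right, show ∑ b, X b * pderiv b p = _ from eul_hom hp.hom, fis_smul_right, add_mul]
  rw [← h]
  refine Finset.sum_le_sum fun i _ => ?_
  have := pyth (harm_Mi hn hp i).harm ((n : ℝ) + 2 * l - 2)⁻¹ (pderiv i p)
  rw [Mi_eq, sub_add_cancel] at this
  rw [this, Mi_eq]
  exact le_add_of_nonneg_right (mul_nonneg (sq_nonneg _) (fis_nonneg _))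

lemma fis_split (hn : 3 ≤ n) {w : Fin n → P0 n} (hw : ∀ i, Sph.Harm l (w i)) :
    fis (∑ i, X i * w i) (∑ i, X i * w i) = fis (∑ i, Mi l i (w i)) (∑ i, Mi l i (w i)) +
      2 / ((n : ℝ) + 2 * l - 2) * fis (∑ i, pderiv i (w i)) (∑ i, pderiv i (w i)) := by
  have h1 : ∑ i, X i * w i =
      ∑ i, Mi l i (w i) + ((n : ℝ) + 2 * l - 2)⁻¹ • (rho * ∑ i, pderiv i (w i)) := by
    simp only [Mi_eq, Finset.sum_sub_distrib, Finset.mul_sum, Finset.smul_sum, sub_add_cancel]
  have h2 : plap (∑ i, Mi l i (w i)) = 0 := by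
    rw [plap_sum]; exact Finset.sum_eq_zero fun i _ => (harm_Mi hn (hw i) i).harm
  have h3 : plap (∑ i, pderiv i (w i)) = 0 := by
    rw [plap_sum]; exact Finset.sum_eq_zero fun i _ => plap_pd (hw i) i
  have h4 : eul (∑ i, pderiv i (w i)) = ((l : ℝ) - 1) • ∑ i, pderiv i (w i) := by
    rw [eul_sum, Finset.smul_sum]; exact Finset.sum_congr rfl fun i _ => eul_pd (hw i).hom i
  have := (den_pos hn l).ne'
  rw [h1, pyth h2, fis_rho_mul, plap_rho_mul, h3, h4, mul_zero, add_zero, smul_smul, ← add_smul,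
    fis_smul_right, ← mul_assoc]
  congr 2
  field_simp
  ring

end Pol2

open Pol2

theorem pol2S : Pol2S := fun _ hn _ =>
  ⟨fun _ i hp => harm_Mi hn hp i, fun _ i hp => ⟨hp.hom.pderiv, plap_pd hp i⟩,
    fun _ _ hw hp => harm_rot hw hp, fun _ a b hp => harm_Lab hp a b, fun _ hp => sum_Lab hp,
    fun _ hp => sum_fis_pd hp, fun _ hp => sum_fis_Mi hn hp, fun _ hw => fis_split hn hw⟩

end Crest.Agent.N221.Car
end
end

-- ▼ part N221/Car/Pol3
section

/-!
Row 221, block `Car`, leaf `Pol3` (helper40): sign of the curvature term in the Fischer product,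
orthogonal substitutions in harmonic polynomials, invariance of the sphere integral.
-/

set_option autoImplicit false

open MvPolynomial MeasureTheory Function
open scoped ContDiff RealInnerProductSpace
open Crest.Agent.R086 Crest.Agent.R086.SH

noncomputable section

namespace Crest.Agent.N221.Car

namespace Pol3

variable {n : ℕ}

/-! ### antisymmetrisation -/

lemma swap_ab (Ω F : Fin n → Fin n → Fin n → Fin n → ℝ)
    (h : ∀ i j a b, Ω i j a b = -Ω i j b a) :
    ∑ i, ∑ j, ∑ a, ∑ b, Ω i j a b * F i j b a = -∑ i, ∑ j, ∑ a, ∑ b, Ω i j a b * F i j a b := by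
  rw [← Finset.sum_neg_distrib]
  refine Finset.sum_congr rfl fun i _ => ?_
  rw [← Finset.sum_neg_distrib]
  refine Finset.sum_congr rfl fun j _ => ?_
  rw [Finset.sum_comm, ← Finset.sum_neg_distrib]
  refine Finset.sum_congr rfl fun a _ => ?_
  rw [← Finset.sum_neg_distrib]
  refine Finset.sum_congr rfl fun b _ => ?_
  rw [h i j b a]
  ring

lemma swap_ij (Ω F : Fin n → Fin n → Fin n → Fin n → ℝ)
    (h : ∀ i j a b, Ω i j a b = -Ω j i a b) :
    ∑ i, ∑ j, ∑ a, ∑ b, Ω i j a b * F j i a b = -∑ i, ∑ j, ∑ a, ∑ b, Ω i j a b * F i j a b := by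
  rw [Finset.sum_comm, ← Finset.sum_neg_distrib]
  refine Finset.sum_congr rfl fun i _ => ?_
  rw [← Finset.sum_neg_distrib]
  refine Finset.sum_congr rfl fun j _ => ?_
  rw [← Finset.sum_neg_distrib]
  refine Finset.sum_congr rfl fun a _ => ?_
  rw [← Finset.sum_neg_distrib]
  refine Finset.sum_congr rfl fun b _ => ?_
  rw [h j i a b]
  ring

lemma anti4 (Ω F : Fin n → Fin n → Fin n → Fin n → ℝ)
    (h1 : ∀ i j a b, Ω i j a b = -Ω j i a b) (h2 : ∀ i j a b, Ω i j a b = -Ω i j b a) :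
    ∑ i, ∑ j, ∑ a, ∑ b, Ω i j a b * (F i j a b - F i j b a - F j i a b + F j i b a) =
      4 * ∑ i, ∑ j, ∑ a, ∑ b, Ω i j a b * F i j a b := by
  have e1 := swap_ab Ω F h2
  have e2 := swap_ij Ω F h1
  have e3 := swap_ab Ω (fun i j a b => F j i a b) h2
  have e0 : ∑ i, ∑ j, ∑ a, ∑ b, Ω i j a b * (F i j a b - F i j b a - F j i a b + F j i b a) =
      ∑ i, ∑ j, ∑ a, ∑ b, Ω i j a b * F i j a b - ∑ i, ∑ j, ∑ a, ∑ b, Ω i j a b * F i j b a -
        ∑ i, ∑ j, ∑ a, ∑ b, Ω i j a b * F j i a b + ∑ i, ∑ j, ∑ a, ∑ b, Ω i j a b * F j i b a := by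
    simp only [mul_add, mul_sub, Finset.sum_add_distrib, Finset.sum_sub_distrib]
  rw [e0, e3, e2, e1]
  ring

lemma fis_sub_left (p p' q : P0 n) : fis (p - p') q = fis p q - fis p' q := by
  have h := fis_add_left (p - p') p' q
  rw [sub_add_cancel] at h
  linarith

lemma fis_sub_right (p q q' : P0 n) : fis p (q - q') = fis p q - fis p q' := by
  unfold fis
  rw [← Finset.sum_sub_distrib]
  refine Finset.sum_congr rfl fun a _ => ?_
  rw [coeff_sub]
  ring

lemma gE_sub (p q : P0 n) : gE (p - q) = gE p - gE q := by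
  have h := gE_add (p - q) q
  rw [sub_add_cancel] at h
  linarith

lemma gE_mono {p q : P0 n} (h : ∀ v, pfun p v ≤ pfun q v) : gE p ≤ gE q :=
  integral_mono (integrable_pfun_gw p) (integrable_pfun_gw q) fun v =>
    mul_le_mul_of_nonneg_right (h v) (gw_pos v).le

lemma pfun_smul (c : ℝ) (p : P0 n) (v : EE n) : pfun (c • p) v = c * pfun p v := by
  simp [pfun]

lemma pfun_sub (p q : P0 n) (v : EE n) : pfun (p - q) v = pfun p v - pfun q v := by
  simp [pfun]

lemma pfun_X (i : Fin n) (v : EE n) : pfun (X i : P0 n) v = v i := by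
  simp [pfun]

/-- the gradient at `v` -/
def grad (p : P0 n) (v : EE n) : EE n := WithLp.toLp 2 fun j => pfun (pderiv j p) v

lemma grad_apply (p : P0 n) (v : EE n) (j : Fin n) : grad p v j = pfun (pderiv j p) v := rfl

lemma norm_grad (p : P0 n) (v : EE n) :
    ‖grad p v‖ ^ 2 = pfun (∑ j, pderiv j p * pderiv j p) v := by
  rw [EuclideanSpace.norm_sq_eq, pfun_sum]
  refine Finset.sum_congr rfl fun j _ => ?_
  rw [pfun_mul, grad_apply, Real.norm_eq_abs, sq_abs, sq]

lemma inner_grad {l : ℕ} {p : P0 n} (hp : p.IsHomogeneous l) (v : EE n) :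
    ⟪v, grad p v⟫ = l * pfun p v := by
  rw [← pfun_Dy_self hp v, Dy_apply, pfun_sum, PiLp.inner_apply]
  refine Finset.sum_congr rfl fun j _ => ?_
  rw [pfun_smul, grad_apply]
  simp [mul_comm]

/-- the Gaussian version of the curvature inequality -/
lemma gauss (Ω : Fin n → Fin n → Fin n → Fin n → ℝ) (κ : ℝ) {l : ℕ} {p : P0 n}
    (hn : ∀ v w : EE n, κ * (‖v‖ ^ 2 * ‖w‖ ^ 2 - ⟪v, w⟫ ^ 2) ≤
      ∑ i, ∑ j, ∑ a, ∑ b, Ω i j a b * (v i * w j * w a * v b)) (hp : p.IsHomogeneous l) :
    κ * (gE (rho * ∑ j, pderiv j p * pderiv j p) - (l : ℝ) ^ 2 * gE (p * p)) ≤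
      ∑ i, ∑ j, ∑ a, ∑ b, Ω i j a b * gE ((X b * pderiv a p) * (X i * pderiv j p)) := by
  have e1 : κ * (gE (rho * ∑ j, pderiv j p * pderiv j p) - (l : ℝ) ^ 2 * gE (p * p)) =
      gE (κ • (rho * ∑ j, pderiv j p * pderiv j p - ((l : ℝ) ^ 2) • (p * p))) := by
    rw [gE_smul, gE_sub, gE_smul]
  have e2 : ∑ i, ∑ j, ∑ a, ∑ b, Ω i j a b * gE ((X b * pderiv a p) * (X i * pderiv j p)) =
      gE (∑ i, ∑ j, ∑ a, ∑ b, Ω i j a b • ((X b * pderiv a p) * (X i * pderiv j p))) := by
    simp only [gE_sum, gE_smul]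
  rw [e1, e2]
  refine gE_mono fun v => ?_
  have h := hn v (grad p v)
  rw [norm_grad, inner_grad hp, ← pfun_rho] at h
  rw [pfun_smul, pfun_sub, pfun_smul, pfun_mul, pfun_mul]
  simp only [pfun_sum, pfun_smul, pfun_mul, pfun_X] at h ⊢
  refine le_trans (le_of_eq (by ring)) (h.trans (le_of_eq ?_))
  refine Finset.sum_congr rfl fun i _ => Finset.sum_congr rfl fun j _ =>
    Finset.sum_congr rfl fun a _ => Finset.sum_congr rfl fun b _ => ?_
  rw [grad_apply, grad_apply]
  ring

lemma part1 (h1 : Pol1S) (h2 : Pol2S) (hn3 : 3 ≤ n)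
    (Ω : Fin n → Fin n → Fin n → Fin n → ℝ) (κ : ℝ) (l : ℕ) (p : P0 n)
    (a1 : ∀ i j a b, Ω i j a b = -Ω j i a b) (a2 : ∀ i j a b, Ω i j a b = -Ω i j b a)
    (hn : ∀ v w : EE n, κ * (‖v‖ ^ 2 * ‖w‖ ^ 2 - ⟪v, w⟫ ^ 2) ≤
      ∑ i, ∑ j, ∑ a, ∑ b, Ω i j a b * (v i * w j * w a * v b)) (hp : Sph.Harm l p) :
    κ * ((l : ℝ) * (l + n - 2)) * fis p p ≤
      ∑ i, ∑ j, ∑ a, ∑ b, Ω i j a b * fis (X b * pderiv a p) (X i * pderiv j p) := by
  obtain ⟨-, -, -, -, hpos, hgE, hrho, -⟩ := h1 n hn3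
  rcases l with _ | m
  · have h0 : p.totalDegree = 0 := by
      rw [totalDegree_zero_iff_isHomogeneous]; exact hp.hom
    have hd : ∀ j, pderiv j p = 0 := fun j => by
      rw [totalDegree_eq_zero_iff_eq_C.mp h0, pderiv_C]
    simp [hd, fis_zero_right]
  · obtain ⟨-, hder, -⟩ := h2 n hn3 m
    obtain ⟨-, -, -, hL, -, hsum, -⟩ := h2 n hn3 (m + 1)
    have f1 := anti4 Ω (fun i j a b => fis (X b * pderiv a p) (X i * pderiv j p)) a1 a2
    have f2 := anti4 Ω (fun i j a b => gE ((X b * pderiv a p) * (X i * pderiv j p))) a1 a2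
    have f3 : ∀ i j a b : Fin n,
        gE ((X b * pderiv a p) * (X i * pderiv j p)) - gE ((X a * pderiv b p) * (X i * pderiv j p)) -
          gE ((X b * pderiv a p) * (X j * pderiv i p)) +
          gE ((X a * pderiv b p) * (X j * pderiv i p)) =
        gE (1 : P0 n) * (fis (X b * pderiv a p) (X i * pderiv j p) -
          fis (X a * pderiv b p) (X i * pderiv j p) - fis (X b * pderiv a p) (X j * pderiv i p) +
          fis (X a * pderiv b p) (X j * pderiv i p)) := by
      intro i j a b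
      have h := hgE _ _ _ _ (hL p a b hp) (hL p j i hp)
      unfold Lab at h
      rw [fis_sub_left, fis_sub_right, fis_sub_right, sub_mul, mul_sub, mul_sub, gE_sub, gE_sub,
        gE_sub] at h
      linarith
    have f4 : ∑ i, ∑ j, ∑ a, ∑ b, Ω i j a b * gE ((X b * pderiv a p) * (X i * pderiv j p)) =
        gE (1 : P0 n) *
          ∑ i, ∑ j, ∑ a, ∑ b, Ω i j a b * fis (X b * pderiv a p) (X i * pderiv j p) := by
      have e : 4 * ∑ i, ∑ j, ∑ a, ∑ b, Ω i j a b * gE ((X b * pderiv a p) * (X i * pderiv j p)) =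
          gE (1 : P0 n) * (4 *
            ∑ i, ∑ j, ∑ a, ∑ b, Ω i j a b * fis (X b * pderiv a p) (X i * pderiv j p)) := by
        rw [← f1, ← f2]
        simp only [f3, Finset.mul_sum]
        refine Finset.sum_congr rfl fun i _ => Finset.sum_congr rfl fun j _ =>
          Finset.sum_congr rfl fun a _ => Finset.sum_congr rfl fun b _ => ?_
        ring
      linarith
    have g1 := gauss Ω κ hn hp.hom
    have hhom : (∑ j, pderiv j p * pderiv j p : P0 n).IsHomogeneous (m + m) :=
      IsHomogeneous.sum _ _ _ fun j _ => (hder p j hp).hom.mul (hder p j hp).hom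
    have g2 : gE (∑ j, pderiv j p * pderiv j p : P0 n) =
        gE (1 : P0 n) * (((m + 1 : ℕ) : ℝ) * fis p p) := by
      rw [gE_sum, ← hsum p hp.hom, Finset.mul_sum]
      exact Finset.sum_congr rfl fun j _ => hgE _ _ _ _ (hder p j hp) (hder p j hp)
    rw [f4, hrho _ _ hhom, g2, hgE _ _ _ _ hp hp] at g1
    refine le_of_mul_le_mul_left (le_trans (le_of_eq ?_) g1) hpos
    push_cast
    ring

/-! ### orthogonal substitution -/

lemma pderiv_Ly (y : EE n) (i : Fin n) : pderiv i (Ly y) = C (y i) := by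
  classical
  unfold Ly
  rw [map_sum, Finset.sum_eq_single i]
  · rw [Derivation.map_smul, pderiv_X_self, MvPolynomial.smul_eq_C_mul, mul_one]
  · intro j _ hj
    rw [Derivation.map_smul, pderiv_X_of_ne hj, smul_zero]
  · simp

lemma pderiv_aeval (f : Fin n → P0 n) (b : Fin n) (p : P0 n) :
    pderiv b (aeval f p) = ∑ a, aeval f (pderiv a p) * pderiv b (f a) := by
  classical
  induction p using MvPolynomial.induction_on with
  | C c => simp
  | add p q hp hq => simp only [map_add, hp, hq, add_mul, Finset.sum_add_distrib]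
  | mul_X p i hp =>
    have e : ∀ a, aeval f (pderiv a (p * X i)) * pderiv b (f a) =
        f i * (aeval f (pderiv a p) * pderiv b (f a)) +
          if a = i then aeval f p * pderiv b (f i) else 0 := by
      intro a
      rw [Derivation.leibniz]
      by_cases h : a = i
      · subst h
        simp only [pderiv_X_self, smul_eq_mul, map_add, map_mul, aeval_X, mul_one, if_true]
        ring
      · rw [pderiv_X_of_ne (Ne.symm h)]
        simp only [smul_eq_mul, map_add, map_mul, aeval_X, mul_zero, h, if_false, map_zero]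
        ring
    simp only [e, Finset.sum_add_distrib, Finset.sum_ite_eq', Finset.mem_univ, if_true]
    rw [map_mul, aeval_X, Derivation.leibniz, hp, ← Finset.mul_sum]
    simp only [smul_eq_mul]
    ring

lemma pfun_aeval (f : Fin n → P0 n) (p : P0 n) (v w : EE n) (h : ∀ a, pfun (f a) v = w a) :
    pfun (aeval f p) v = pfun p w := by
  induction p using MvPolynomial.induction_on with
  | C c => simp [pfun]
  | add p q hp hq => rw [map_add, pfun_add, pfun_add, hp, hq]
  | mul_X p i hp => rw [map_mul, aeval_X, pfun_mul, pfun_mul, hp, h, pfun_X]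

lemma plap_aeval (y : Fin n → EE n)
    (hy : ∀ a c, ∑ b, y a b * y c b = if a = c then 1 else 0) (p : P0 n) :
    plap (aeval (fun a => Ly (y a)) p) = aeval (fun a => Ly (y a)) (plap p) := by
  classical
  have e1 : ∀ (b : Fin n) (q : P0 n), pderiv b (aeval (fun a => Ly (y a)) q) =
      ∑ a, y a b • aeval (fun a => Ly (y a)) (pderiv a q) := by
    intro b q
    rw [pderiv_aeval]
    refine Finset.sum_congr rfl fun a _ => ?_
    rw [pderiv_Ly, MvPolynomial.smul_eq_C_mul, mul_comm]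
  unfold plap
  simp only [e1, map_sum, Derivation.map_smul, Finset.smul_sum, smul_smul]
  rw [Finset.sum_comm]
  refine Finset.sum_congr rfl fun a _ => ?_
  rw [Finset.sum_comm]
  simp only [← Finset.sum_smul, hy, ite_smul, one_smul, zero_smul, Finset.sum_ite_eq,
    Finset.mem_univ, if_true]

lemma part2 (O : EE n ≃ₗᵢ[ℝ] EE n) (l : ℕ) (p : P0 n) (hp : Sph.Harm l p) :
    ∃ q : P0 n, Sph.Harm l q ∧ ∀ v, pfun q v = pfun p (O v) := by
  classical
  set y : Fin n → EE n := fun a => O.symm (EuclideanSpace.single a 1) with hy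
  refine ⟨aeval (fun a => Ly (y a)) p, ⟨?_, ?_⟩, fun v => pfun_aeval _ _ _ _ fun a => ?_⟩
  · have h := hp.hom.aeval (fun a => Ly (y a)) (n := 1) fun a => by
      simpa using Ly_pow_hom (y a) 1
    simpa using h
  · show plap _ = 0
    have h0 : plap p = 0 := hp.harm
    rw [plap_aeval, h0, map_zero]
    intro a c
    have h1 : ⟪y c, y a⟫ = ∑ b, y a b * y c b := by
      rw [PiLp.inner_apply]
      simp
    rw [← h1, hy]
    simp only [LinearIsometryEquiv.inner_map_map, EuclideanSpace.inner_single_left]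
    simp [eq_comm]
  · rw [pfun_Ly, hy]
    simp only
    rw [← O.inner_map_map, O.apply_symm_apply, EuclideanSpace.inner_single_left]
    simp

lemma part3 (O : EE n ≃ₗᵢ[ℝ] EE n) (g : EE n → ℝ) : sI (fun w => g (O w)) = sI g :=
  Crest.Agent.R070.RotInv260.integral_sphMap O fun w => g w

end Pol3

theorem pol3S (h1 : Pol1S) (h2 : Pol2S) : Pol3S := fun _ hn =>
  ⟨Pol3.part1 h1 h2 hn, Pol3.part2, Pol3.part3⟩

end Crest.Agent.N221.Car
end
end

-- ▼ part N221/Car/Weitz
section

/-! Row 221, block `Car`: the Weitzenböck identity (pure algebra) -/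

set_option autoImplicit false

open MvPolynomial
open Crest.Agent.R086 Crest.Agent.R086.SH

noncomputable section

namespace Crest.Agent.N221.Car

namespace Wz

variable {n : ℕ} {A : Type} [CommRing A] [Algebra ℝ A]

local notation "P" => MvPolynomial (Fin n) A

/-! ### the Fischer pairing -/

theorem fis_of_subset (p q : P) {S : Finset (Fin n →₀ ℕ)} (hS : p.support ⊆ S) :
    fisA p q = ∑ s ∈ S, mfac s • (coeff s p * coeff s q) :=
  Finset.sum_subset hS fun a _ ha => by rw [notMem_support_iff.1 ha, zero_mul, smul_zero]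

theorem fis_comm (p q : P) : fisA p q = fisA q p := by
  classical
  rw [fis_of_subset p q (S := p.support ∪ q.support) Finset.subset_union_left,
    fis_of_subset q p (S := p.support ∪ q.support) Finset.subset_union_right]
  simp only [mul_comm]

/-- the pairing as a linear map of the right argument -/
def fisR (p : P) : P →ₗ[A] A where
  toFun := fisA p
  map_add' q r := by simp [fisA, mul_add, Finset.sum_add_distrib]
  map_smul' a q := by simp [fisA, Finset.mul_sum, mul_left_comm a]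

theorem fis_add_r (p q r : P) : fisA p (q + r) = fisA p q + fisA p r := (fisR p).map_add q r
theorem fis_sub_r (p q r : P) : fisA p (q - r) = fisA p q - fisA p r := (fisR p).map_sub q r
theorem fis_sum_r {ι : Type} (s : Finset ι) (p : P) (q : ι → P) :
    fisA p (∑ i ∈ s, q i) = ∑ i ∈ s, fisA p (q i) := map_sum (fisR p) q s
theorem fis_C_r (a : A) (p q : P) : fisA p (C a * q) = a * fisA p q := by
  rw [← smul_eq_C_mul]; exact (fisR p).map_smul a q
theorem fis_add_l (p q r : P) : fisA (q + r) p = fisA q p + fisA r p := by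
  simp only [fis_comm _ p, fis_add_r]
theorem fis_sub_l (p q r : P) : fisA (q - r) p = fisA q p - fisA r p := by
  simp only [fis_comm _ p, fis_sub_r]
theorem fis_sum_l {ι : Type} (s : Finset ι) (p : P) (q : ι → P) :
    fisA (∑ i ∈ s, q i) p = ∑ i ∈ s, fisA (q i) p := by simp only [fis_comm _ p, fis_sum_r]
theorem fis_C_l (a : A) (p q : P) : fisA (C a * q) p = a * fisA q p := by
  simp only [fis_comm _ p, fis_C_r]

theorem fis_X_l (i : Fin n) (p q : P) : fisA (X i * p) q = fisA p (pderiv i q) := by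
  classical
  unfold fisA
  rw [support_X_mul, Finset.sum_map]
  refine Finset.sum_congr rfl fun b _ => ?_
  rw [addLeftEmbedding_apply, coeff_X_mul, mfac_succ, coeff_pderiv, add_comm b (Finsupp.single i 1),
    mul_smul, add_smul, one_smul, Nat.cast_smul_eq_nsmul, nsmul_eq_mul]
  congr 1; ring

theorem fis_X_r (i : Fin n) (p q : P) : fisA q (X i * p) = fisA (pderiv i q) p := by
  rw [fis_comm, fis_X_l, fis_comm]

theorem fis_rot {w : Fin n → Fin n → A} (h : ∀ a b, w a b = -w b a) (p q : P) :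
    fisA (rot w p) q + fisA p (rot w q) = 0 := by
  simp only [rot, fis_sum_l, fis_sum_r, fis_C_l, fis_C_r, fis_X_l, fis_X_r]
  rw [Finset.sum_comm, ← Finset.sum_add_distrib]
  refine Finset.sum_eq_zero fun a _ => ?_
  rw [← Finset.sum_add_distrib]
  exact Finset.sum_eq_zero fun b _ => by rw [h b a]; ring

theorem fis_cD (D : Derivation ℝ A A) (p q : P) :
    D (fisA p q) = fisA (cD D p) q + fisA p (cD D q) := by
  rw [fis_of_subset (cD D p) q (S := p.support) fun s hs => mem_support_iff.2 fun e =>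
    mem_support_iff.1 hs (by rw [coeff_cD, e, map_zero]), fisA, fisA, map_sum, ← Finset.sum_add_distrib]
  refine Finset.sum_congr rfl fun s _ => ?_
  rw [Derivation.map_smul, Derivation.leibniz, coeff_cD, coeff_cD, ← smul_add, smul_eq_mul,
    smul_eq_mul]
  congr 1; ring

/-! ### derivations -/

theorem dext {D1 D2 : Derivation ℝ P P} (hC : ∀ a, D1 (C a) = D2 (C a))
    (hX : ∀ i, D1 (X i) = D2 (X i)) (p : P) : D1 p = D2 p := by
  induction p using MvPolynomial.induction_on with
  | C a => exact hC a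
  | add p q hp hq => rw [map_add, map_add, hp, hq]
  | mul_X p i hp => rw [Derivation.leibniz, Derivation.leibniz, hp, hX]

theorem dsum {ι : Type} (s : Finset ι) (D : ι → Derivation ℝ P P) (p : P) :
    (∑ i ∈ s, D i) p = ∑ i ∈ s, D i p := by
  rw [← Finset.sum_apply]
  exact congrFun (map_sum Derivation.coeFnAddMonoidHom D s) p

/-- `rot` as a derivation -/
def rotD (w : Fin n → Fin n → A) : Derivation ℝ P P :=
  ∑ a, ∑ b, (C (w a b) * X b : P) • (pderiv a).restrictScalars ℝ

theorem rotD_apply (w : Fin n → Fin n → A) (p : P) : rotD w p = rot w p := by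
  simp [rotD, dsum, rot, mul_assoc]

omit [Algebra ℝ A] in
theorem rot_C (w : Fin n → Fin n → A) (a : A) : rot w (C a : P) = 0 := by simp [rot]

omit [Algebra ℝ A] in
theorem rot_X (w : Fin n → Fin n → A) (c : Fin n) : rot w (X c : P) = ∑ b, C (w c b) * X b := by
  rw [rot, Finset.sum_eq_single c (fun a _ h => by simp [pderiv_X_of_ne h.symm]) (by simp)]
  simp

variable (F : AFr n A)

/-- `nab` as a derivation -/
def nabD (i : Fin n) : Derivation ℝ P P := cD (F.D i) - rotD (F.om i)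

theorem nabD_apply (i : Fin n) (p : P) : nabD F i p = F.nab i p := by
  rw [nabD, Derivation.sub_apply, rotD_apply, AFr.nab]

theorem nab_C (i : Fin n) (a : A) : nabD F i (C a) = C (F.D i a) := by
  rw [nabD_apply, AFr.nab, rot_C, sub_zero]; exact cDl_monomial _ 0 a

theorem nab_X (i c : Fin n) : nabD F i (X c) = -∑ b, C (F.om i c b) * X b := by
  have : cD (F.D i) (X c : P) = 0 := (cDl_monomial _ _ 1).trans (by simp)
  rw [nabD_apply, AFr.nab, rot_X, this, zero_sub]

theorem nab_pd (i k : Fin n) (p : P) : nabD F i (pderiv k p) =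
    pderiv k (nabD F i p) + ∑ a, C (F.om i a k) * pderiv a p := by
  classical
  have := dext (D1 := ⁅nabD F i, (pderiv k).restrictScalars ℝ⁆)
    (D2 := ∑ a, (C (F.om i a k) : P) • (pderiv a).restrictScalars ℝ)
    (fun a => by simp [Derivation.commutator_apply, dsum, nab_C]) (fun c => by
      have : nabD F i (pderiv k (X c : P)) = 0 := by
        rw [pderiv_X, Pi.single_apply]; split_ifs <;> simp
      simp [Derivation.commutator_apply, dsum, nab_X, this, -pderiv_X]
      simp [Pi.single_apply]) p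
  simp only [Derivation.commutator_apply, dsum, Derivation.smul_apply,
    Derivation.restrictScalars_apply, smul_eq_mul] at this
  rw [← this]; ring

theorem s23 {M : Type} [AddCommMonoid M] (f : Fin n → Fin n → Fin n → M) :
    ∑ i, ∑ j, ∑ k, f i j k = ∑ i, ∑ j, ∑ k, f i k j :=
  Finset.sum_congr rfl fun _ _ => Finset.sum_comm

theorem s13 {M : Type} [AddCommMonoid M] (f : Fin n → Fin n → Fin n → M) :
    ∑ i, ∑ j, ∑ k, f i j k = ∑ i, ∑ j, ∑ k, f k j i := by
  rw [s23, Finset.sum_comm, s23]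

theorem nab_nab (i j : Fin n) (p : P) : nabD F i (nabD F j p) - nabD F j (nabD F i p) =
    ∑ k, C (F.om i k j - F.om j k i) * nabD F k p - rot (F.Om i j) p := by
  have := dext (D1 := ⁅nabD F i, nabD F j⁆)
    (D2 := ∑ k, (C (F.om i k j - F.om j k i) : P) • nabD F k - rotD (F.Om i j))
    (fun a => by
      simp only [Derivation.commutator_apply, dsum, nab_C, Derivation.sub_apply, rotD_apply, rot_C,
        Derivation.smul_apply, smul_eq_mul, sub_zero, ← map_sub, ← map_mul, ← map_sum, F.tors])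
    (fun c => by
      simp only [Derivation.commutator_apply, dsum, nab_C, nab_X, Derivation.sub_apply, rotD_apply,
        rot_X, Derivation.smul_apply, smul_eq_mul, map_neg, map_sum, Derivation.leibniz, AFr.Om,
        map_sub, map_add, map_mul, mul_neg, Finset.mul_sum, Finset.sum_mul, add_mul, sub_mul,
        Finset.sum_add_distrib, Finset.sum_sub_distrib, Finset.sum_neg_distrib, mul_assoc]
      rw [Finset.sum_comm (f := fun a b => C (F.om i c b) * (C (F.om j b a) * X a)),
        Finset.sum_comm (f := fun a b => C (F.om j c b) * (C (F.om i b a) * X a)),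
        Finset.sum_comm (f := fun a b => C (F.om i b j) * (C (F.om b c a) * X a)),
        Finset.sum_comm (f := fun a b => C (F.om j b i) * (C (F.om b c a) * X a))]
      simp only [mul_comm (X _)]
      ring) p
  simpa only [Derivation.commutator_apply, dsum, Derivation.smul_apply, Derivation.sub_apply,
    rotD_apply, smul_eq_mul] using this

theorem leib (i : Fin n) (p q : P) :
    F.D i (fisA p q) = fisA (nabD F i p) q + fisA p (nabD F i q) := by
  rw [nabD_apply, nabD_apply, AFr.nab, AFr.nab, fis_sub_l, fis_sub_r, fis_cD]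
  linear_combination fis_rot (F.skew i) p q

theorem nab_T (i j k : Fin n) (r : P) : nabD F i (X j * pderiv k r) =
    X j * pderiv k (nabD F i r) + ∑ a, C (F.om i a k) * (X j * pderiv a r) -
      ∑ b, C (F.om i j b) * (X b * pderiv k r) := by
  rw [Derivation.leibniz, nab_pd, nab_X]
  simp only [smul_eq_mul, mul_add, Finset.mul_sum, mul_left_comm (X j), sub_eq_add_neg,
    mul_comm (pderiv k r), mul_assoc, neg_mul, Finset.sum_mul]

theorem zz (p : P) : ∑ i, ∑ j, (nabD F i (X j * pderiv i (nabD F j p)) -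
    nabD F i (X i * pderiv j (nabD F j p)) + C (F.dv i) * (X j * pderiv i (nabD F j p)) -
      C (F.dv i) * (X i * pderiv j (nabD F j p))) = -∑ i, ∑ j, X j * pderiv i (rot (F.Om i j) p) := by
  set T : Fin n → Fin n → Fin n → P := fun a b c => X a * pderiv b (nabD F c p) with hT
  have h1 : ∑ i, ∑ j, X j * pderiv i (nabD F i (nabD F j p)) -
      ∑ i, ∑ j, X i * pderiv j (nabD F i (nabD F j p)) = ∑ i, ∑ j, ∑ k, C (F.om i k j) * T j i k -
        ∑ i, ∑ j, ∑ k, C (F.om j k i) * T j i k - ∑ i, ∑ j, X j * pderiv i (rot (F.Om i j) p) := by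
    rw [Finset.sum_comm (f := fun i j => X i * pderiv j (nabD F i (nabD F j p)))]
    simp only [← Finset.sum_sub_distrib, ← mul_sub, ← sub_mul, ← map_sub, nab_nab]
    refine Finset.sum_congr rfl fun i _ => Finset.sum_congr rfl fun j _ => ?_
    rw [map_sub, map_sum, mul_sub, Finset.mul_sum]
    simp only [pderiv_C_mul, hT, mul_left_comm (X j)]
  have h2 : ∑ i, ∑ j, ∑ a, C (F.om i a i) * T j a j = -∑ i, ∑ j, ∑ k, C (F.om k k i) * T j i j := by
    rw [s13]
    simp only [← Finset.sum_neg_distrib, ← neg_mul, ← map_neg, ← F.skew]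
  have h3 : ∑ i, ∑ j, ∑ a, C (F.om i a j) * T i a j = -∑ i, ∑ j, ∑ k, C (F.om j k i) * T j i k := by
    rw [s23, Finset.sum_comm]
    simp only [← Finset.sum_neg_distrib, ← neg_mul, ← map_neg, ← F.skew]
  have h4 := s23 fun i j b => C (F.om i j b) * T b i j
  have h5 := s13 fun i j b => C (F.om i i b) * T b j j
  simp only [nab_T, AFr.dv, map_sum, Finset.sum_mul, Finset.sum_add_distrib, Finset.sum_sub_distrib]
  linear_combination h1 + h2 - h3 - h4 + h5

end Wz

open Wz in
theorem weitzS : WeitzS := fun n A _ _ F => by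
  classical
  refine ⟨fun i j a b => ?_, fun i j a b => ?_,
    fun i p q => by simpa only [nabD_apply] using leib F i p q, fun p => ?_⟩
  · simp only [AFr.Om, sub_mul, Finset.sum_sub_distrib]; ring
  · have h1 : ∀ i j, ∑ c, F.om i a c * F.om j c b = ∑ c, F.om j b c * F.om i c a := fun i j =>
      Finset.sum_congr rfl fun c _ => by rw [F.skew i a c, F.skew j c b]; ring
    simp only [AFr.Om, Finset.sum_sub_distrib, h1, fun k => F.skew k a b, map_neg, mul_neg,
      Finset.sum_neg_distrib]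
    ring
  have a1 : fisA (F.Dv p) (F.Dv p) = ∑ i, fisA (nabD F i p) (nabD F i p) +
      ∑ i, ∑ j, fisA (X j * pderiv i (nabD F j p)) (nabD F i p) := by
    have e : ∀ i, pderiv i (F.Dv p) = nabD F i p + ∑ j, X j * pderiv i (nabD F j p) := fun i => by
      simp only [AFr.Dv, ← nabD_apply, map_sum, pderiv_mul, Finset.sum_add_distrib]
      rw [Finset.sum_eq_single i (fun j _ h => by rw [pderiv_X_of_ne h, zero_mul]) (by simp),
        pderiv_X_self, one_mul]
    conv_lhs => arg 2; rw [AFr.Dv]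
    simp only [← nabD_apply, fis_sum_r, fis_X_r _ _ (F.Dv p), e, fis_add_l, fis_sum_l,
      Finset.sum_add_distrib]
  have a2 : fisA (F.del p) (F.del p) = ∑ i, ∑ j, fisA (X i * pderiv j (nabD F j p)) (nabD F i p) := by
    simp only [AFr.del, ← nabD_apply, fis_sum_l, fis_sum_r, fis_X_l]
  have a3 : F.curv p = fisA (∑ i, ∑ j, X j * pderiv i (rot (F.Om i j) p)) p := by
    simp only [AFr.curv, fis_sum_l, fis_X_l _ (pderiv _ (rot _ _)), ← fis_X_r]
    simp only [rot, fis_sum_l, fis_C_l]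
  have a4 : fisA _ p = fisA _ p := congrArg (fisA · p) (zz F p)
  rw [← zero_sub, fis_sub_l, ← a3, show fisA 0 p = 0 from Finset.sum_empty] at a4
  simp only [fis_sum_l, fis_sub_l, fis_add_l, fis_C_l, Finset.sum_add_distrib,
    Finset.sum_sub_distrib] at a4
  rw [a1, a2]
  simp only [AFr.W, ← nabD_apply, map_sum, map_sub, leib, Finset.mul_sum, mul_sub,
    Finset.sum_add_distrib, Finset.sum_sub_distrib]
  linear_combination -a4

end Crest.Agent.N221.Car
end
end

-- ▼ part N221/Car/Rep2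
section

/-! Row 221, block `Car`: `Rep` commutes with `∇_i` and with rotations (helper32). -/

set_option autoImplicit false

open MvPolynomial MeasureTheory Function
open scoped ContDiff RealInnerProductSpace Topology
open Crest.Agent.R086 Crest.Agent.R086.SH

noncomputable section

namespace Crest.Agent.N221.Car

namespace R2

variable {n : ℕ}

lemma integ {g : EE n → ℝ} (hg : Continuous g) : Integrable (fun w : Sph n => g w) (sg n) :=
  (hg.comp continuous_subtype_val).integrable_of_hasCompactSupport (HasCompactSupport.of_compactSpace _)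

lemma sI_add {f g : EE n → ℝ} (hf : Continuous f) (hg : Continuous g) :
    sI (fun w => f w + g w) = sI f + sI g := integral_add (integ hf) (integ hg)

lemma sI_sub {f g : EE n → ℝ} (hf : Continuous f) (hg : Continuous g) :
    sI (fun w => f w - g w) = sI f - sI g := integral_sub (integ hf) (integ hg)

/-- differentiation under the spherical integral -/
lemma sI_deriv {H H' : ℝ → EE n → ℝ} (hH : ∀ t w, HasDerivAt (fun t => H t w) (H' t w) t)
    (hc : ∀ t, Continuous (H t)) (hc' : Continuous (uncurry H')) :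
    HasDerivAt (fun t => sI (H t)) (sI (H' 0)) 0 := by
  obtain ⟨C, hC⟩ := ((isCompact_closedBall (0 : ℝ) 1).prod
    (isCompact_sphere (0 : EE n) 1)).exists_bound_of_continuousOn hc'.continuousOn
  exact (hasDerivAt_integral_of_dominated_loc_of_deriv_le (μ := sg n) (bound := fun _ => C)
    (F := fun t w => H t w) (F' := fun t w => H' t w) (Metric.closedBall_mem_nhds 0 one_pos)
    (.of_forall fun t => (integ (hc t)).1) (integ (hc 0)) (integ (hc'.uncurry_left 0)).1
    (.of_forall fun w t ht => hC (t, w) ⟨ht, w.2⟩) (integrable_const _)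
    (.of_forall fun w t _ => hH t w)).2

/-- `w v` -/
def mv (w : Fin n → Fin n → ℝ) : EE n →L[ℝ] EE n := Matrix.toEuclideanCLM (𝕜 := ℝ) (Matrix.of w)

lemma mv_apply (w : Fin n → Fin n → ℝ) (v : EE n) (a : Fin n) : mv w v a = ∑ b, w a b * v b := rfl

/-- the spherical integral of an infinitesimal rotation vanishes -/
lemma sI_rot (hO : ∀ (O : EE n ≃ₗᵢ[ℝ] EE n) (g : EE n → ℝ), sI (fun w => g (O w)) = sI g)
    {w : Fin n → Fin n → ℝ} (hw : ∀ a b, w a b = -w b a) {g : EE n → ℝ} (hg : ContDiff ℝ ∞ g) :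
    sI (fun v => fderiv ℝ g v (mv w v)) = 0 := by
  let _ : NormedAlgebra ℚ (EE n →L[ℝ] EE n) := .restrictScalars ℚ ℝ _
  have hs : mv w ∈ skewAdjoint (EE n →L[ℝ] EE n) := by
    rw [skewAdjoint.mem_iff, mv, ← map_star, ← map_neg]
    congr 1
    ext a b
    exact hw b a
  have hd := hasDerivAt_exp_smul_const (𝕂 := ℝ) (mv w)
  have hc : Continuous fun t : ℝ => NormedSpace.exp (t • mv w) :=
    continuous_iff_continuousAt.2 fun t => (hd t).continuousAt
  have hf := hg.continuous_fderiv (by simp)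
  have := sI_deriv (H := fun t v => g (NormedSpace.exp (t • mv w) v))
    (H' := fun t v => fderiv ℝ g (NormedSpace.exp (t • mv w) v) (NormedSpace.exp (t • mv w) (mv w v)))
    (fun t v => (hg.differentiable (by simp) _).hasFDerivAt.comp_hasDerivAt t
      (by simpa using (hd t).clm_apply (hasDerivAt_const t v)))
    (fun t => hg.continuous.comp (ContinuousLinearMap.continuous _)) (by unfold uncurry; fun_prop)
  rw [show (fun t : ℝ => sI fun v => g (NormedSpace.exp (t • mv w) v)) = fun _ => sI g from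
    funext fun t => hO (Unitary.linearIsometryEquiv ⟨_,
      NormedSpace.exp_mem_unitary_of_mem_skewAdjoint (skewAdjoint.smul_mem t hs)⟩) g] at this
  have e : NormedSpace.exp ((0 : ℝ) • mv w) = 1 := by
    rw [show (0 : ℝ) • mv w = 0 from zero_smul ℝ (mv w), NormedSpace.exp_zero]
  simpa [e] using this.unique (hasDerivAt_const _ _)

lemma pfun_rot (w : Fin n → Fin n → ℝ) (p : P0 n) (v : EE n) :
    pfun (rot w p) v = fderiv ℝ (pfun p) v (mv w v) := by
  rw [(hasFDerivAt_pfun p v).fderiv]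
  simp only [rot, pfun, map_sum, map_mul, eval_C, eval_X, _root_.sum_apply,
    _root_.smul_apply, PiLp.proj_apply, mv_apply, smul_eq_mul, Finset.mul_sum]
  exact Finset.sum_congr rfl fun _ _ => Finset.sum_congr rfl fun _ _ => by ring

lemma ax_rot (x : EE n) (w : Fin n → Fin n → Sm n) (P : PP n) :
    ax x (rot w P) = rot (fun a b => (w a b).1 x) (ax x P) := by
  simp [ax, rot, pderiv_map, evx_apply]

lemma cD_pderiv {A : Type} [CommRing A] [Algebra ℝ A] (D : Derivation ℝ A A) (i : Fin n)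
    (p : MvPolynomial (Fin n) A) : pderiv i (cD D p) = cD D (pderiv i p) := by
  ext s
  simp [coeff_pderiv, coeff_cD, mul_comm]

/-- the matrix of `Lab` -/
def eab (a b : Fin n) : Fin n → Fin n → ℝ := fun c d =>
  (if c = a ∧ d = b then 1 else 0) - if c = b ∧ d = a then 1 else 0

lemma eab_skew (a b c d : Fin n) : eab a b c d = -eab a b d c := by simp [eab, and_comm]

lemma rot_eab (a b : Fin n) (p : P0 n) : rot (eab a b) p = Lab a b p := by
  simp [rot, eab, Lab, sub_mul, Finset.sum_sub_distrib, ite_and, apply_ite C]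

lemma mv_eab (a b : Fin n) (v : EE n) : mv (eab a b) v =
    v b • EuclideanSpace.single a (1 : ℝ) - v a • EuclideanSpace.single b (1 : ℝ) := by
  ext c
  simp [mv_apply, eab, sub_mul, Finset.sum_sub_distrib, ite_and]

variable {U : EE n → EE n → ℝ} {l : ℕ} {P : PP n}

lemma smU_dir (hU : SmU U) {Z : EE n × EE n → EE n × EE n} (hZ : ContDiff ℝ ∞ Z) :
    SmU fun x v => fderiv ℝ (uncurry U) (x, v) (Z (x, v)) :=
  (ContDiff.fderiv_right hU (m := ∞) (by simp)).clm_apply hZ

lemma cont_dir (hU : SmU U) (x : EE n) {Z : EE n → EE n × EE n} (hZ : Continuous Z) (p : P0 n) :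
    Continuous fun v => fderiv ℝ (uncurry U) (x, v) (Z v) * pfun p v := by
  have := ContDiff.continuous_fderiv hU (by simp)
  have := continuous_pfun p
  fun_prop

lemma rep_rot (hn : 3 ≤ n) (h1 : Pol1S) (h2 : Pol2S) (h3 : Pol3S) (hU : SmU U) (hP : Rep l U P)
    (x : EE n) {w : Fin n → Fin n → ℝ} (hw : ∀ a b, w a b = -w b a) {p : P0 n} (hp : Sph.Harm l p) :
    fis (rot w (ax x P)) p = sI fun v => fderiv ℝ (uncurry U) (x, v) (0, mv w v) * pfun p v := by
  obtain ⟨sy, -, -, sm, -⟩ := h1 n hn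
  have e1 : ∀ q r : P0 n, fis (rot w q) r = ∑ a, ∑ b, w a b * fis (pderiv a q) (pderiv b r) :=
    fun q r => by simp only [rot, fis_sum_left, C_mul', sm, fis_X_mul]
  have e2 : fis (rot w (ax x P)) p + fis (ax x P) (rot w p) = 0 := by
    rw [sy (ax x P), e1, e1, Finset.sum_comm, ← Finset.sum_add_distrib]
    refine Finset.sum_eq_zero fun a _ => ?_
    rw [← Finset.sum_add_distrib]
    exact Finset.sum_eq_zero fun b _ => by rw [hw b a, sy]; ring
  have hx : ContDiff ℝ ∞ (U x) := ContDiff.comp (g := uncurry U) hU (contDiff_prodMk_right x)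
  have hq : ContDiff ℝ ∞ (pfun p) := (contDiff_pfun p).of_le le_top
  have e3 := sI_rot (h3 n hn).2.2 hw (hx.mul hq)
  rw [(hP x).2 _ ((h2 n hn l).2.2.1 p w hw hp), ← e3] at e2
  refine (eq_sub_of_add_eq e2).trans ?_
  rw [sub_eq_iff_eq_add, ← sI_add (cont_dir hU x (Z := fun v => (0, mv w v)) (by fun_prop) p)
    (hx.continuous.fun_mul (continuous_pfun _))]
  congr 1
  funext v
  have e4 := ((ContDiff.differentiable hU (by simp) (x, v)).hasFDerivAt.comp v
    (hasFDerivAt_prodMk_right x v)).mul (hq.differentiable (by simp) v).hasFDerivAt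
  rw [pfun_rot, show fderiv ℝ (fun v => U x v * pfun p v) v = _ from e4.fderiv]
  simp [mul_comm, add_comm]

lemma rep_dir (hn : 3 ≤ n) (h1 : Pol1S) (hR : Rep1S) (hU : SmU U) (hP : Rep l U P) {e : EE n → EE n}
    (he : ContDiff ℝ ∞ e) (x : EE n) : Sph.Harm l (ax x (cD (dir e he) P)) ∧ ∀ p, Sph.Harm l p →
      fis (ax x (cD (dir e he) P)) p = sI fun v => fderiv ℝ (uncurry U) (x, v) (e x, 0) * pfun p v := by
  have pl : ∀ y (Q : PP n), Sph.plap (ax y Q) = ax y (∑ i, pderiv i (pderiv i Q)) := fun y Q => by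
    simp [Sph.plap, ax, pderiv_map]
  refine ⟨⟨fun s hs => by_contra fun h => hs ?_, ?_⟩, fun p hp => ?_⟩
  · have : coeff s P = 0 := Subtype.ext (funext fun y => by_contra fun h' => h ((hP y).1.hom
      (by rwa [ax, coeff_map])))
    rw [ax, coeff_map, coeff_cD, this, map_zero, map_zero]
  · simp only [pl, cD_pderiv, ← map_sum]
    rw [(hR n hn).2.1 (∑ i, pderiv i (pderiv i P)) 0 fun y => by
      rw [← pl, (hP y).1.harm, ax, map_zero], map_zero, ax, map_zero]
  have hl : ∀ t : ℝ, HasDerivAt (fun t : ℝ => x + t • e x) (e x) t := fun t => by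
    simpa using ((hasDerivAt_id t).smul_const (e x)).const_add x
  have hf := ContDiff.continuous_fderiv hU (by simp)
  have hc := ContDiff.continuous hU
  have hq := continuous_pfun p
  have d1 := sI_deriv (H := fun t v => U (x + t • e x) v * pfun p v)
    (H' := fun t v => fderiv ℝ (uncurry U) (x + t • e x, v) (e x, 0) * pfun p v)
    (fun t v => ((ContDiff.differentiable hU (by simp) _).hasFDerivAt.comp_hasDerivAt t
      ((hl t).prodMk (hasDerivAt_const t v))).mul_const _)
    (fun t => (hc.uncurry_left _).mul hq) (by unfold uncurry at *; fun_prop)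
  have d2 : HasDerivAt (fun t : ℝ => fis p (ax (x + t • e x) P)) (fis p (ax x (cD (dir e he) P))) 0 := by
    refine HasDerivAt.fun_sum fun s _ => HasDerivAt.const_mul _ ?_
    simp only [ax, coeff_map, coeff_cD, evx_apply, dir_apply]
    exact ((Sm.sm (coeff s P)).differentiable (by simp) x).hasFDerivAt.comp_hasDerivAt_of_eq 0 (hl 0)
      (by simp)
  simp only [← fun y => (hP y).2 p hp, (h1 n hn).1 _ p, zero_smul, add_zero] at d1 ⊢
  exact d2.unique d1

end R2
open R2

theorem rep2S (h1 : Pol1S) (h2 : Pol2S) (h3 : Pol3S) (hR : Rep1S) : Rep2S := by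
  intro n hn U hU
  refine ⟨fun a b => ⟨smU_dir hU (Z := fun q => (0, q.2 b • EuclideanSpace.single a (1 : ℝ) -
      q.2 a • EuclideanSpace.single b (1 : ℝ))) (by fun_prop), fun l P hP x => ?_⟩,
    fun F i => ⟨smU_dir hU (Z := fun q => (F.e i q.1, -F.omv i q.1 q.2)) ?_, fun l P hP x => ?_⟩⟩
  · rw [show ax x (Lab a b P) = Lab a b (ax x P) by simp [ax, Lab, pderiv_map]]
    refine ⟨(h2 n hn l).2.2.2.1 _ a b (hP x).1, fun p hp => ?_⟩
    rw [← rot_eab, rep_rot hn h1 h2 h3 hU hP x (eab_skew a b) hp]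
    simp only [mv_eab, LU]
  · have := F.e_sm i
    have := fun a b => Sm.sm (F.om i a b)
    refine ContDiff.prodMk (by fun_prop) (ContDiff.neg (contDiff_euclidean.2 fun a => ?_))
    simp only [Fr.omv]
    fun_prop
  · have hw : ∀ a b, (F.om i a b).1 x = -(F.om i b a).1 x := fun a b => by rw [F.skew]; rfl
    obtain ⟨k1, k2⟩ := rep_dir hn h1 hR hU hP (F.e_sm i) x
    have k3 := (h2 n hn l).2.2.1 _ _ hw (hP x).1
    rw [show ax x (F.alg.nab i P) = ax x (cD (dir _ (F.e_sm i)) P) - ax x (rot (F.om i) P) from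
      map_sub _ _ _, ax_rot]
    refine ⟨⟨k1.hom.sub k3.hom, by rw [Sph.plap_sub, k1.harm, k3.harm, sub_zero]⟩, fun p hp => ?_⟩
    rw [eq_sub_of_add_eq ((fis_add_left _ _ p).symm.trans (congrArg (fis · p) (sub_add_cancel _ _))),
      k2 p hp, rep_rot hn h1 h2 h3 hU hP x hw hp,
      ← sI_sub (cont_dir hU x (by fun_prop) p) (cont_dir hU x (by fun_prop) p)]
    congr 1
    funext v
    rw [← sub_mul, ← map_sub, Prod.mk_sub_mk, sub_zero, zero_sub]
    rfl

end Crest.Agent.N221.Car
end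
end

-- ▼ part N221/Car/Rep3
section

/-! Row 221, block `Car`: decay of the components, completeness, invariance (helper3). -/

set_option autoImplicit false

open MvPolynomial MeasureTheory Function
open scoped ContDiff RealInnerProductSpace
open Crest.Agent.R086 Crest.Agent.R086.SH

noncomputable section

namespace Crest.Agent.N221.Car

namespace Rep3

variable {n : ℕ}

theorem int_sph {g : EE n → ℝ} (hg : Continuous g) : Integrable (fun w : Sph n => g w) (sg n) :=
  (hg.comp continuous_subtype_val).integrable_of_hasCompactSupport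
    (HasCompactSupport.of_compactSpace _)

theorem sI_congr {f g : EE n → ℝ} (h : ∀ v, ‖v‖ = 1 → f v = g v) : sI f = sI g :=
  integral_congr_ae (Filter.Eventually.of_forall fun w : Sph n =>
    h w (mem_sphere_zero_iff_norm.1 w.2))

theorem sI_sum {ι : Type} (s : Finset ι) (c : ι → ℝ) {g : ι → EE n → ℝ}
    (hg : ∀ i, Continuous (g i)) : sI (fun w => ∑ i ∈ s, c i * g i w) = ∑ i ∈ s, c i * sI (g i) := by
  unfold sI
  rw [integral_finsetSum _ fun i _ => (int_sph (hg i)).const_mul (c i)]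
  simp only [integral_const_mul]

theorem complete (hn : 3 ≤ n) {f g : EE n → ℝ} (hf : Continuous f) (hg : Continuous g)
    (h : ∀ (m : ℕ) (p : P0 n), Sph.Harm m p →
      (sI fun w => f w * pfun p w) = sI fun w => g w * pfun p w) {v : EE n} (hv : ‖v‖ = 1) :
    f v = g v := by
  have : NeZero n := ⟨by omega⟩
  refine sub_eq_zero.1 (complete_real (fun w => f w - g w) (by fun_prop) (fun m p hp hp' => ?_)
    ⟨v, mem_sphere_zero_iff_norm.2 hv⟩)
  simp only [sub_mul]
  rw [integral_sub (int_sph (g := fun w => f w * pfun p w) (hf.mul (continuous_pfun p)))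
    (int_sph (g := fun w => g w * pfun p w) (hg.mul (continuous_pfun p))), sub_eq_zero]
  exact h m p ⟨hp, hp'⟩

theorem sI_sq_nonneg (g : EE n → ℝ) : 0 ≤ sI fun w => g w ^ 2 :=
  integral_nonneg fun _ => sq_nonneg _

/-- Cauchy-Schwarz on the sphere -/
theorem sI_cs {f g : EE n → ℝ} (hf : Continuous f) (hg : Continuous g) :
    (sI fun w => f w * g w) ^ 2 ≤ (sI fun w => f w ^ 2) * sI fun w => g w * g w := by
  have h := discrim_le_zero (a := sI fun w => g w * g w) (b := 2 * sI fun w => f w * g w)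
    (c := sI fun w => f w ^ 2) fun t => by
      have h0 := sI_sq_nonneg fun w => f w + t * g w
      have h1 := sI_sum Finset.univ ![t * t, 2 * t, 1]
        (g := ![fun w => g w * g w, fun w => f w * g w, fun w => f w ^ 2]) (fun i => by
          fin_cases i <;> simp <;> fun_prop)
      simp only [Fin.sum_univ_three, Matrix.cons_val] at h1
      rw [sI_congr (g := fun w => t * t * (g w * g w) + 2 * t * (f w * g w) + 1 * f w ^ 2)
        (fun v _ => by ring), h1] at h0
      linarith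
  rw [discrim] at h
  linarith

theorem le_of_sq {f a : ℝ} (hf : 0 ≤ f) (ha : 0 ≤ a) (h : f ^ 2 ≤ a * f) : f ≤ a := by
  rcases hf.eq_or_lt with rfl | hf
  · exact ha
  · exact le_of_mul_le_mul_right (by linarith) hf

theorem cont_U {U : EE n → EE n → ℝ} (h : SmU U) (x : EE n) : Continuous (U x) :=
  h.continuous.comp (Continuous.prodMk_right x)

/-- Bessel for one component -/
theorem basic (h1 : Pol1S) (hn : 3 ≤ n) {l : ℕ} {U : EE n → EE n → ℝ} {P : PP n} (hU : SmU U)
    (h : Rep l U P) (x : EE n) : kp n l * fis (ax x P) (ax x P) ≤ sI fun w => U x w ^ 2 := by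
  obtain ⟨-, a2, -, -, -, -, -, a8, -, a10, -⟩ := h1 n hn
  have b1 := sI_cs (cont_U hU x) (continuous_pfun (ax x P))
  rw [← (h x).2 _ (h x).1] at b1
  have b2 := a10 l _ _ (h x).1 (h x).1
  refine le_of_sq (mul_nonneg (a8 l).le (a2 _)) (sI_sq_nonneg _) ?_
  calc _ = kp n l ^ 2 * fis (ax x P) (ax x P) ^ 2 := by ring
    _ ≤ kp n l ^ 2 * ((sI fun w => U x w ^ 2) * sI fun w => pfun (ax x P) w * pfun (ax x P) w) := by
        gcongr
    _ = _ := by rw [b2]; ring

theorem ax_Lab (x : EE n) (a b : Fin n) (P : PP n) : ax x (Lab a b P) = Lab a b (ax x P) := by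
  simp only [ax, Lab, map_sub, map_mul, map_X, pderiv_map]

theorem LU_zero {U : EE n → EE n → ℝ} (hU : SmU U) {x : EE n} (h : ∀ v, U x v = 0) (a b : Fin n)
    (v : EE n) : LU a b U x v = 0 := by
  have h1 := (hU.differentiable (by simp) (x, v)).hasFDerivAt.comp v
    (hasFDerivAt_prodMk_right (𝕜 := ℝ) x v)
  have h2 : HasFDerivAt (uncurry U ∘ fun e => (x, e)) (0 : EE n →L[ℝ] ℝ) v := by
    rw [show (uncurry U ∘ fun e => (x, e)) = fun _ => 0 from funext h]
    exact hasFDerivAt_const _ _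
  exact congrArg (fun L : EE n →L[ℝ] ℝ => L _) (h1.unique h2)

/-- iterates of the spherical Laplacian -/
theorem iter (h2 : Pol2S) (hR : Rep1S) (hR2 : Rep2S) (hn : 3 ≤ n) {U : EE n → EE n → ℝ} (hU : SmU U)
    (N : ℕ) : ∃ V : EE n → EE n → ℝ, SmU V ∧ (∀ x, (∀ v, U x v = 0) → ∀ v, V x v = 0) ∧
      ∀ l P, Rep l U P → ∃ Q, Rep l V Q ∧
        ∀ x, ax x Q = (-(2 * ((l : ℝ) * (l + n - 2)))) ^ N • ax x P := by
  induction N with
  | zero => exact ⟨U, hU, fun _ h => h, fun l P h => ⟨P, h, fun x => by simp⟩⟩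
  | succ N ih =>
    obtain ⟨V, a1, a2, a3⟩ := ih
    have b1 := fun a b => ((hR2 n hn V a1).1 a b).1
    have b2 := fun a b => ((hR2 n hn _ (b1 a b)).1 a b).1
    refine ⟨fun x v => ∑ p : Fin n × Fin n, LU p.1 p.2 (LU p.1 p.2 V) x v, ?_, fun x h v => ?_,
      fun l P h => ?_⟩
    · exact ContDiff.sum (f := fun (p : Fin n × Fin n) => uncurry (LU p.1 p.2 (LU p.1 p.2 V)))
        fun p _ => b2 p.1 p.2
    · exact Finset.sum_eq_zero fun p _ => LU_zero (b1 _ _) (LU_zero a1 (a2 x h) _ _) _ _ _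
    · obtain ⟨Q, c1, c2⟩ := a3 l P h
      refine ⟨∑ p : Fin n × Fin n, Lab p.1 p.2 (Lab p.1 p.2 Q),
        (hR n hn).2.2.2.2.2.2.1 l _ _ _ _ (fun p _ => b2 p.1 p.2) fun p _ =>
          ((hR2 n hn _ (b1 _ _)).1 _ _).2 l _ (((hR2 n hn V a1).1 _ _).2 l Q c1), fun x => ?_⟩
      rw [ax, map_sum, Fintype.sum_prod_type]
      simp only [← ax.eq_1, ax_Lab]
      rw [(h2 n hn l).2.2.2.2.1 _ (c1 x).1, c2, smul_smul, pow_succ']

end Rep3

open Rep3 in
theorem rep3S (h1 : Pol1S) (h2 : Pol2S) (h3 : Pol3S) (hR : Rep1S) (hR2 : Rep2S) : Rep3S := by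
  intro n hn
  obtain ⟨a1, a2, a3, a4, -, -, -, a8, -, a10, a11⟩ := h1 n hn
  refine ⟨fun U hU N => ?_, fun U P D x hU hP hD v hv => ?_, fun ι _ μ u s hu => ?_⟩
  · obtain ⟨V, b1, b2, b3⟩ := iter h2 hR hR2 hn hU N
    refine ⟨V, b1, b2, fun l P h x => ?_⟩
    obtain ⟨Q, c1, c2⟩ := b3 l P h
    refine le_trans ?_ (basic h1 hn b1 c1 x)
    rw [c2, a4, a1 (ax x P) (_ • _), a4, ← mul_assoc ((-_) ^ N), ← mul_pow,
      mul_left_comm (kp n l)]
    refine mul_le_mul_of_nonneg_right (pow_le_pow_left₀ (by positivity) ?_ N)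
      (mul_nonneg (a8 l).le (a2 _))
    have e1 : (3 : ℝ) ≤ n := by exact_mod_cast hn
    rcases Nat.eq_zero_or_pos l with rfl | hl
    · simp
    · have e2 : (1 : ℝ) ≤ l := by exact_mod_cast hl
      have e3 : (l : ℝ) ≤ 2 * (l * (l + n - 2)) := by nlinarith
      nlinarith
  · have hc : ∀ l (p : P0 n), Continuous fun w => pfun (ax x (P l)) w * pfun p w := fun l p =>
      (continuous_pfun _).mul (continuous_pfun _)
    refine complete hn (cont_U hU x) (g := fun w => ∑ l ∈ Finset.range D,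
      kp n l * pfun (ax x (P l)) w) (continuous_finsetSum _ fun l _ =>
        continuous_const.mul (continuous_pfun _)) (fun m p hm => ?_) hv
    simp only [Finset.sum_mul, mul_assoc]
    refine ((hP m x).2 p hm).symm.trans (Eq.trans ?_ (sI_sum _ _ fun l => hc l p).symm)
    rw [Finset.sum_eq_single m (fun l _ hl => by rw [a11 l m _ _ (hP l x).1 hm hl, mul_zero])
      (fun h => by
        rw [← a10 m _ _ (hP m x).1 hm, hD m (by simpa using h), a1, fis_zero_right]),
      a10 m _ _ (hP m x).1 hm]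
  · obtain ⟨-, b2, b3⟩ := h3 n hn
    refine ⟨∑ a, ∑ b, s.B a b ^ 2, by positivity, fun l P hP x => ?_⟩
    rw [Finset.sum_mul]
    refine Finset.sum_le_sum fun a _ => ?_
    obtain ⟨c1, c2⟩ := hP a (s.g x)
    obtain ⟨q, d1, d2⟩ := b2 (s.O x) l _ c1
    have e1 : fis q q = fis (ax (s.g x) (P a)) (ax (s.g x) (P a)) := by
      rw [a10 l _ _ d1 d1, a10 l _ _ c1 c1, ← b3 (s.O x) fun w => pfun (ax _ _) w * pfun (ax _ _) w]
      simp only [d2]
    have e2 : fis q q = ∑ b, s.B a b * fis (ax x (P b)) q := by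
      rw [e1, c2 _ c1, ← b3 (s.O x), sI_congr (g := fun w => ∑ b, s.B a b * (u b x w * pfun q w))
        (fun v hv => by simp only [s.eqv a x v hv, d2, Finset.sum_mul, mul_assoc]),
        sI_sum _ _ (g := fun b w => u b x w * pfun q w)
          fun b => (cont_U (hu b) x).mul (continuous_pfun q)]
      exact Finset.sum_congr rfl fun b _ => by rw [(hP b x).2 q d1]
    rw [← e1]
    refine le_of_sq (a2 _) (mul_nonneg (by positivity) (Finset.sum_nonneg fun b _ => a2 _)) ?_
    calc fis q q ^ 2 = (∑ b, s.B a b * fis (ax x (P b)) q) ^ 2 := by rw [← e2]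
      _ ≤ (∑ b, s.B a b ^ 2) * ∑ b, fis (ax x (P b)) q ^ 2 := Finset.sum_mul_sq_le_sq_mul_sq _ _ _
      _ ≤ (∑ b, s.B a b ^ 2) * ∑ b, fis (ax x (P b)) (ax x (P b)) * fis q q := by
          gcongr with b
          exact a3 _ _
      _ = _ := by rw [← Finset.sum_mul, mul_assoc]

end Crest.Agent.N221.Car
end
end

-- ▼ part N221/Car/Sum
section

/-!
Row 221, block `Car`: the weighted summation `SumS`.

With `β l = l^t (l-2) b l`, `s l = l^(t+2) m l` the potential
`Φ l = β l + β (l+1) + κ/4 (2 s l + s (l+1))` is nonnegative, monotone from `D` on and tends to `0`.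
-/

set_option autoImplicit false

open Filter Topology

noncomputable section

namespace Crest.Agent.N221.Car

namespace WSum

lemma decay {f : ℕ → ℝ} (h0 : ∀ l, 0 ≤ f l) {N : ℕ} {B : ℝ} (h : ∀ l : ℕ, (l : ℝ) ^ (N + 1) * f l ≤ B) :
    Tendsto (fun l : ℕ => (l : ℝ) ^ N * f l) atTop (𝓝 0) := by
  refine squeeze_zero' (Eventually.of_forall fun l => by have := h0 l; positivity) ?_
    (tendsto_const_div_atTop_nhds_zero_nat B)
  filter_upwards [eventually_gt_atTop 0] with l hl
  have : (0 : ℝ) < l := by exact_mod_cast hl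
  rw [le_div_iff₀ this]
  exact le_trans (le_of_eq (by ring)) (h l)

lemma bern {x T : ℝ} {t : ℕ} (hx : 0 < x) (hT : T ≤ 2 * t) : x ^ t * (x + T) ≤ (x + 2) ^ t * x := by
  have h1 := one_add_mul_le_pow (a := 2 / x) (le_trans (by norm_num) (by positivity : 0 ≤ 2 / x)) t
  have h2 : (x + 2) ^ t = x ^ t * (1 + 2 / x) ^ t := by
    rw [← mul_pow]; congr 1; field_simp
  have h3 : x + T ≤ (1 + 2 / x) ^ t * x := by
    refine le_trans ?_ (mul_le_mul_of_nonneg_right h1 hx.le)
    have : (1 + t * (2 / x)) * x = x + 2 * t := by field_simp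
    linarith
  rw [h2, mul_assoc]
  exact mul_le_mul_of_nonneg_left h3 (by positivity)

end WSum

open WSum in
theorem sumS : SumS := by
  intro b m κ K hκ hK hb hm hd H
  obtain ⟨T, hT1, hT⟩ : ∃ T : ℝ, 1 ≤ T ∧ 8 * K / κ ≤ T := ⟨_, le_max_left _ _, le_max_right _ _⟩
  obtain ⟨t, ht⟩ := exists_nat_ge T
  rw [div_le_iff₀ hκ] at hT
  set β : ℕ → ℝ := fun l => (l : ℝ) ^ t * ((l : ℝ) - 2) * b l with hβ
  set s : ℕ → ℝ := fun l => (l : ℝ) ^ (t + 2) * m l with hs
  have s0 : ∀ l, 0 ≤ s l := fun l => by have := hm l; simp only [hs]; positivity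
  have β0 : ∀ l, 2 ≤ l → 0 ≤ β l := fun l hl => by
    have h1 : (0 : ℝ) ≤ (l : ℝ) - 2 := sub_nonneg.2 (by exact_mod_cast hl)
    have := hb l
    simp only [hβ]; positivity
  have step : ∀ l, t + 2 ≤ l → β l + κ * s l ≤ β (l + 2) + κ / 4 * (s l + s (l + 1) + s (l + 2)) := by
    intro l hl
    have hl' : (t : ℝ) + 2 ≤ l := by exact_mod_cast hl
    have h0 : (0 : ℝ) < l := by linarith
    have h1 := mul_le_mul_of_nonneg_left (H T hT1 l (by omega))
      (show (0 : ℝ) ≤ (l : ℝ) ^ (t + 1) by positivity)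
    have e1 : (l : ℝ) ^ (t + 1) * ((1 - 2 / (l : ℝ)) * b l + κ * l * m l) = β l + κ * s l := by
      simp only [hβ, hs]; field_simp; ring
    have e2 : (l : ℝ) ^ (t + 1) * ((1 + T / l) * b (l + 2)) ≤ β (l + 2) := by
      have := mul_le_mul_of_nonneg_right (bern (t := t) h0 (show T ≤ 2 * t by linarith)) (hb (l + 2))
      simp only [hβ]
      push_cast
      refine le_trans (le_of_eq ?_) (this.trans_eq (by ring))
      field_simp; ring
    have e3 : (1 + l / T) * K ≤ κ / 4 * l := by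
      have a1 : K / T ≤ κ / 8 := by rw [div_le_div_iff₀ (by linarith) (by norm_num)]; linarith
      have a2 : K ≤ κ / 8 * l := by nlinarith
      have a3 := mul_le_mul_of_nonneg_right a1 h0.le
      calc _ = K + K / T * l := by ring
        _ ≤ _ := by linarith
    have e4 : ∀ i : ℕ, (l : ℝ) ^ (t + 2) * m (l + i) ≤ s (l + i) := fun i =>
      mul_le_mul_of_nonneg_right (by gcongr; omega) (hm _)
    have e5 : (l : ℝ) ^ (t + 1) * ((1 + l / T) * K * (m l + m (l + 1) + m (l + 2))) ≤
        κ / 4 * (s l + s (l + 1) + s (l + 2)) := by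
      have a1 := hm l
      have a2 := hm (l + 1)
      have a3 := hm (l + 2)
      calc _ ≤ (l : ℝ) ^ (t + 1) * (κ / 4 * l * (m l + m (l + 1) + m (l + 2))) := by gcongr
        _ = κ / 4 * ((l : ℝ) ^ (t + 2) * m l + (l : ℝ) ^ (t + 2) * m (l + 1) +
            (l : ℝ) ^ (t + 2) * m (l + 2)) := by ring
        _ ≤ _ := by gcongr; exacts [e4 1, e4 2]
    rw [e1, mul_add] at h1
    linarith
  set Φ : ℕ → ℝ := fun l => β l + β (l + 1) + κ / 4 * (2 * s l + s (l + 1)) with hΦ
  have mono : ∀ l, t + 2 ≤ l → ∀ k, l ≤ k → Φ l ≤ Φ k := fun l hl k hk => by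
    induction k, hk using Nat.le_induction with
    | base => exact le_rfl
    | succ k hk ih =>
      have h1 := step k (hl.trans hk)
      have h2 := mul_nonneg hκ.le (s0 k)
      simp only [hΦ] at ih ⊢
      linarith
  have ls : Tendsto s atTop (𝓝 0) := (hd (t + 3)).elim fun B h => decay hm fun l => (h l).2
  have lβ : Tendsto β atTop (𝓝 0) := by
    obtain ⟨B, h⟩ := hd (t + 2)
    refine squeeze_zero' ((eventually_ge_atTop 2).mono β0) (Eventually.of_forall fun l => ?_)
      (decay hb fun l => (h l).1)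
    have := hb l
    simp only [hβ]
    rw [pow_succ]
    gcongr
    linarith
  have lΦ : Tendsto Φ atTop (𝓝 0) := by
    have := (lβ.add (lβ.comp (tendsto_add_atTop_nat 1))).add
      (((ls.const_mul 2).add (ls.comp (tendsto_add_atTop_nat 1))).const_mul (κ / 4))
    simpa using this
  refine ⟨t + 2, fun l hl => ?_⟩
  have h1 : Φ l ≤ 0 := ge_of_tendsto lΦ ((eventually_ge_atTop l).mono (mono l hl))
  have h2 := β0 l (by omega)
  have h3 := β0 (l + 1) (by omega)
  have h4 := mul_nonneg hκ.le (s0 (l + 1))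
  have h5 : κ * s l ≤ 0 := by simp only [hΦ] at h1; linarith
  have h6 : s l = 0 := le_antisymm (nonpos_of_mul_nonpos_right h5 hκ) (s0 l)
  have h0 : (l : ℝ) ≠ 0 := by exact_mod_cast (show l ≠ 0 by omega)
  exact (mul_eq_zero.1 h6).resolve_left (pow_ne_zero _ h0)

end Crest.Agent.N221.Car
end
end

-- ▼ part N221/Car/Core
section

/-!
Row 221, block `Car` (helper34): the Carleman argument for one cut-off (`CoreS`).
-/

set_option autoImplicit false

open MvPolynomial MeasureTheory Function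
open scoped ContDiff RealInnerProductSpace
open Crest.Agent.R086 Crest.Agent.R086.SH

noncomputable section

namespace Crest.Agent.N221.Car

namespace Co

variable {n : ℕ}

/-- fibrewise Fischer norm² -/
def nq (P : PP n) (x : EE n) : ℝ := fis (ax x P) (ax x P)


lemma nq_zero {K : Set (EE n)} {P : PP n} (h : Sup K P) (x : EE n) (hx : x ∉ K) : nq P x = 0 := by
  unfold nq; rw [h x hx, fis_zero_right]

lemma nq_cont (hR : Rep1S) (hn : 3 ≤ n) (P : PP n) : Continuous (nq P) := by
  have e : nq P = (fisA P P).1 := funext fun x => ((hR n hn).1 x P P).symm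
  rw [e]; exact (Sm.sm _).continuous

lemma nq_int (hR : Rep1S) (hn : 3 ≤ n) {μ : Measure (EE n)} [IsFiniteMeasureOnCompacts μ]
    {K : Set (EE n)} (hK : IsCompact K) {P : PP n} (h : Sup K P) : Integrable (nq P) μ :=
  (nq_cont hR hn P).integrable_of_hasCompactSupport (hcs_of hK (nq_zero h))

lemma Sup.del {K : Set (EE n)} (hK : IsClosed K) {P : PP n} (h : Sup K P) (F : Fr n) :
    Sup K (F.alg.del P) := by
  intro x hx
  unfold AFr.del
  rw [ax_sum]
  exact Finset.sum_eq_zero fun i _ => by rw [ax_pderiv, h.nab hK F i x hx, map_zero]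

lemma Sup.Xp (hR : Rep1S) (hn : 3 ≤ n) {K : Set (EE n)} (hK : IsClosed K) {P : PP n} (h : Sup K P)
    (F : Fr n) (l : ℕ) : Sup K (F.alg.Xp l P) := by
  intro x hx
  unfold AFr.Xp
  rw [ax_sum]
  refine Finset.sum_eq_zero fun i _ => ?_
  rw [(hR n hn).2.2.1, h.nab hK F i x hx]
  simp [Mi]

/-- the integrated Weitzenböck inequality -/
lemma weitz_int (h1 : Pol1S) (h2 : Pol2S) (h3 : Pol3S) (hW : WeitzS) (hR : Rep1S) (hn : 3 ≤ n)
    {F : Fr n} {μ : Measure (EE n)} {κ : ℝ} (hG : F.Good μ κ) {K : Set (EE n)} (hK : IsCompact K)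
    {l : ℕ} {f : PP n} (hf : Sup K f) (hh : ∀ x, Sph.Harm l (ax x f))
    (hh' : ∀ i x, Sph.Harm l (ax x (F.alg.nab i f))) :
    (1 - 2 / ((n : ℝ) + 2 * l - 2)) * ∫ x, nq (F.alg.del f) x ∂μ +
      κ * ((l : ℝ) * (l + n - 2)) * ∫ x, nq f x ∂μ ≤ ∫ x, nq (F.alg.Xp l f) x ∂μ := by
  have := hG.fin
  obtain ⟨hO1, hO2, -, hId⟩ := hW n (Sm n) F.alg
  have hev := (hR n hn).1
  set w : Fin n → Sm n := fun i => F.alg.D i (F.alg.W f i) + F.alg.dv i * F.alg.W f i with hw
  have hWs : ∀ i, HasCompactSupport (F.alg.W f i).1 := fun i => hcs_of hK fun x hx => by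
    unfold AFr.W
    rw [sm_sum]
    refine Finset.sum_eq_zero fun j _ => ?_
    rw [sm_sub, hev, hev, hf x hx, fis_zero_right, fis_zero_right, sub_self]
  have hwi : ∀ i, Integrable (w i).1 μ := fun i => by
    refine (Sm.sm (w i)).continuous.integrable_of_hasCompactSupport ?_
    have a1 : HasCompactSupport (F.alg.D i (F.alg.W f i)).1 :=
      ((hWs i).fderiv ℝ).mono fun x hx h0 => hx (by
        show fderiv ℝ (F.alg.W f i).1 x (F.e i x) = 0
        rw [h0]; rfl)
    exact a1.add ((hWs i).mul_left (f := (F.alg.dv i).1))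
  have hw0 : ∫ x, ∑ i, (w i).1 x ∂μ = 0 := by
    rw [integral_finsetSum _ fun i _ => hwi i]
    exact Finset.sum_eq_zero fun i _ => hG.ibp i _ (hWs i)
  have hpt : ∀ x, (1 - 2 / ((n : ℝ) + 2 * l - 2)) * nq (F.alg.del f) x +
      κ * ((l : ℝ) * (l + n - 2)) * nq f x + ∑ i, (w i).1 x ≤ nq (F.alg.Xp l f) x := by
    intro x
    have e1 := congrArg (fun φ : Sm n => φ.1 x) (hId f)
    simp only [sm_add, sm_sum, hev] at e1
    have e2 := (h2 n hn l).2.2.2.2.2.2.2 (fun i => ax x (F.alg.nab i f)) fun i => hh' i x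
    have e3 : ax x (F.alg.Dv f) = ∑ i, X i * ax x (F.alg.nab i f) := by
      unfold AFr.Dv; simp only [ax_sum, ax_mul, ax_X]
    have e4 : ax x (F.alg.Xp l f) = ∑ i, Mi l i (ax x (F.alg.nab i f)) := by
      unfold AFr.Xp; simp only [ax_sum, (hR n hn).2.2.1]
    have e5 : ax x (F.alg.del f) = ∑ i, pderiv i (ax x (F.alg.nab i f)) := by
      unfold AFr.del; simp only [ax_sum, ax_pderiv]
    rw [← e3, ← e4, ← e5] at e2
    have e6 := (h3 n hn).1 (fun i j a b => (F.alg.Om i j a b).1 x) κ l (ax x f)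
      (fun i j a b => by rw [hO1 i j a b, sm_neg]) (fun i j a b => by rw [hO2 i j a b, sm_neg])
      (hG.neg x) (hh x)
    have e7 : (F.alg.curv f).1 x = ∑ i, ∑ j, ∑ a, ∑ b, (F.alg.Om i j a b).1 x *
        fis (X b * pderiv a (ax x f)) (X i * pderiv j (ax x f)) := by
      unfold AFr.curv
      simp only [sm_sum, sm_mul, hev, ax_mul, ax_X, ax_pderiv]
    have e8 : 0 ≤ ∑ i, fis (ax x (F.alg.nab i f)) (ax x (F.alg.nab i f)) :=
      Finset.sum_nonneg fun i _ => (h1 n hn).2.1 _
    have e9 : ∑ i, (w i).1 x =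
        ∑ i, ((F.alg.D i (F.alg.W f i)).1 x + (F.alg.dv i * F.alg.W f i).1 x) := rfl
    unfold nq
    rw [e9]
    rw [e7] at e1
    linarith
  have i1 := nq_int hR hn (μ := μ) hK (hf.del hK.isClosed F)
  have i2 := nq_int hR hn (μ := μ) hK hf
  have i3 := nq_int hR hn (μ := μ) hK (hf.Xp hR hn hK.isClosed F l)
  have i4 : Integrable (fun x => ∑ i, (w i).1 x) μ := integrable_finsetSum _ fun i _ => hwi i
  have h := integral_mono (((i1.const_mul _).add (i2.const_mul _)).add i4) i3 hpt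
  rw [integral_add' ((i1.const_mul _).add (i2.const_mul _)) i4,
    integral_add' (i1.const_mul _) (i2.const_mul _), integral_const_mul, integral_const_mul,
    hw0, add_zero] at h
  exact h

lemma Rep.add (hR : Rep1S) (hn : 3 ≤ n) {l : ℕ} {U V : EE n → EE n → ℝ} {P Q : PP n}
    (hU : SmU U) (hV : SmU V) (hP : Rep l U P) (hQ : Rep l V Q) :
    Rep l (fun x v => U x v + V x v) (P + Q) := by
  have h := (hR n hn).2.2.2.2.2.2.1 l Bool Finset.univ (fun b => cond b U V) (fun b => cond b P Q)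
    (fun b _ => by cases b <;> assumption) (fun b _ => by cases b <;> assumption)
  simpa [Fintype.sum_bool] using h

/-- the transport equation in components -/
lemma recur (hR : Rep1S) (hR2 : Rep2S) (hn : 3 ≤ n) (F : Fr n) {u : EE n → EE n → ℝ} {k : ℝ}
    {P : ℕ → PP n} (χ : Sm n) (hu : SmU u) (hX : ∀ x v, ‖v‖ = 1 → F.XU u x v = k * u x v)
    (hP : ∀ l, Rep l u (P l)) (l : ℕ) (x : EE n) :
    ((n : ℝ) + 2 * l)⁻¹ • ax x (F.alg.Xp l (C χ * P l)) =
      (k • ax x (C χ * P (l + 1)) + ∑ i, (F.alg.D i χ).1 x • pderiv i (ax x (P (l + 2))) +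
        ((n : ℝ) + 2 * l)⁻¹ • ∑ i, (F.alg.D i χ).1 x • Mi l i (ax x (P l))) -
      ax x (F.alg.del (C χ * P (l + 2))) := by
  obtain ⟨-, -, hMi, -, hloc, hmul, hsum, hco⟩ := hR n hn
  have hU : SmU fun x v => χ.1 x * u x v := smU_mul χ hu
  have hf : ∀ l, Rep l (fun x v => χ.1 x * u x v) (C χ * P l) := fun l => hmul l u _ χ (hP l)
  have hN := fun i => (hR2 n hn _ hU).2 F i
  have r1 := hsum (l + 1) (Fin n) Finset.univ
    (fun i x v => v i * F.nabU i (fun x v => χ.1 x * u x v) x v) _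
    (fun i _ => smU_coord i (hN i).1)
    (fun i _ => hco l i _ _ _ (hN i).1 ((hN i).2 l _ (hf l)) ((hN i).2 (l + 2) _ (hf (l + 2))))
  have r2 := hsum (l + 1) (Fin n) Finset.univ
    (fun i x v => (F.alg.D i χ).1 x * (v i * u x v)) _
    (fun i _ => smU_mul _ (smU_coord i hu))
    (fun i _ => hmul (l + 1) _ _ (F.alg.D i χ) (hco l i u _ _ hu (hP l) (hP (l + 2))))
  have r3 := hmul (l + 1) _ _ (algebraMap ℝ (Sm n) k) (hf (l + 1))
  have r4 := Rep.add hR hn (smU_mul _ hU)
    (smU_sum _ fun i _ => smU_mul (F.alg.D i χ) (smU_coord i hu)) r3 r2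
  have e := hloc (l + 1) _ _ _ _ r1 r4 x fun v hv => by
    have h := hX x v hv
    unfold Fr.XU at h
    simp only [nabU_mul F _ χ hu]
    show _ = k * (χ.1 x * u x v) + _
    have : ∑ i, v i * ((F.alg.D i χ).1 x * u x v + χ.1 x * F.nabU i u x v) =
        χ.1 x * ∑ i, v i * F.nabU i u x v + ∑ i, (F.alg.D i χ).1 x * (v i * u x v) := by
      rw [Finset.mul_sum, ← Finset.sum_add_distrib]
      exact Finset.sum_congr rfl fun i _ => by ring
    rw [this, h]; ring
  have ek : (algebraMap ℝ (Sm n) k).1 x = k := rfl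
  rw [ax_add, ax_C_mul x (algebraMap ℝ (Sm n) k), ek] at e
  simp only [ax_sum, ax_add, ax_smul, ax_pderiv, hMi, Finset.sum_add_distrib,
    ax_C_mul x (F.alg.D _ χ), smul_add] at e
  unfold AFr.Xp AFr.del
  simp only [ax_sum, ax_pderiv, hMi]
  rw [eq_sub_iff_add_eq, add_comm, Finset.smul_sum, e, add_assoc, Finset.smul_sum]
  congr 2
  exact Finset.sum_congr rfl fun i _ => smul_comm _ _ _

/-- pointwise form of the recursive inequality -/
lemma recur_le (h1 : Pol1S) (h2 : Pol2S) (hR : Rep1S) (hR2 : Rep2S) (hn : 3 ≤ n) (F : Fr n)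
    {u : EE n → EE n → ℝ} {k : ℝ} {P : ℕ → PP n} (χ : Sm n) (hu : SmU u)
    (hX : ∀ x v, ‖v‖ = 1 → F.XU u x v = k * u x v) (hP : ∀ l, Rep l u (P l)) (l : ℕ) {θ : ℝ}
    (hθ : 0 < θ) (x : EE n) :
    kp n l / ((n : ℝ) + 2 * l) * nq (F.alg.Xp l (C χ * P l)) x ≤
      (1 + θ⁻¹) * (3 * (k ^ 2 * (kp n (l + 1) * nq (C χ * P (l + 1)) x) +
        kp n (l + 2) * ((∑ i, (F.alg.D i χ).1 x ^ 2) * nq (P (l + 2)) x) +
        kp n l * ((∑ i, (F.alg.D i χ).1 x ^ 2) * nq (P l) x))) +
      (1 + θ) * (kp n (l + 1) * nq (F.alg.del (C χ * P (l + 2))) x) := by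
  obtain ⟨hs, h0, -, hm, -, -, -, hkp, hkr, -⟩ := h1 n hn
  have hn3 : (3 : ℝ) ≤ n := by exact_mod_cast hn
  have hl : (0 : ℝ) ≤ l := Nat.cast_nonneg l
  have hd : (0 : ℝ) < n + 2 * l := by linarith
  have e := recur hR hR2 hn F χ hu hX hP l x
  have a1 := fis_sub_le hs h0 hm hθ
    (k • ax x (C χ * P (l + 1)) + ∑ i, (F.alg.D i χ).1 x • pderiv i (ax x (P (l + 2))) +
        ((n : ℝ) + 2 * l)⁻¹ • ∑ i, (F.alg.D i χ).1 x • Mi l i (ax x (P l)))
    (ax x (F.alg.del (C χ * P (l + 2))))
  rw [← e, fis_smul_smul hs hm] at a1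
  have a2 := fis_add3_le hs h0 hm (k • ax x (C χ * P (l + 1)))
    (∑ i, (F.alg.D i χ).1 x • pderiv i (ax x (P (l + 2))))
    (((n : ℝ) + 2 * l)⁻¹ • ∑ i, (F.alg.D i χ).1 x • Mi l i (ax x (P l)))
  rw [fis_smul_smul hs hm, fis_smul_smul hs hm] at a2
  have a3 := fis_sum_le hs h0 hm Finset.univ (fun i => (F.alg.D i χ).1 x)
    (fun i => pderiv i (ax x (P (l + 2))))
  rw [(h2 n hn (l + 2)).2.2.2.2.2.1 _ (hP (l + 2) x).1.hom] at a3
  have a4 := fis_sum_le hs h0 hm Finset.univ (fun i => (F.alg.D i χ).1 x)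
    (fun i => Mi l i (ax x (P l)))
  have a5 := (h2 n hn l).2.2.2.2.2.2.1 _ (hP l x).1
  have hc : 0 ≤ ∑ i, (F.alg.D i χ).1 x ^ 2 := Finset.sum_nonneg fun i _ => sq_nonneg _
  have a6 := a4.trans (mul_le_mul_of_nonneg_left a5 hc)
  unfold nq
  set c := ∑ i, (F.alg.D i χ).1 x ^ 2
  set A := fis (ax x (F.alg.Xp l (C χ * P l))) (ax x (F.alg.Xp l (C χ * P l)))
  set B := fis (ax x (F.alg.del (C χ * P (l + 2)))) (ax x (F.alg.del (C χ * P (l + 2))))
  set N1 := fis (ax x (C χ * P (l + 1))) (ax x (C χ * P (l + 1)))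
  set N2 := fis (ax x (P (l + 2))) (ax x (P (l + 2)))
  set N0 := fis (ax x (P l)) (ax x (P l))
  set S2 := fis (∑ i, (F.alg.D i χ).1 x • pderiv i (ax x (P (l + 2))))
    (∑ i, (F.alg.D i χ).1 x • pderiv i (ax x (P (l + 2))))
  set S0 := fis (∑ i, (F.alg.D i χ).1 x • Mi l i (ax x (P l)))
    (∑ i, (F.alg.D i χ).1 x • Mi l i (ax x (P l)))
  have hN2 : 0 ≤ N2 := h0 _
  have hN0 : 0 ≤ N0 := h0 _
  have k1 := hkr l
  have k2 := hkr (l + 1)
  have p0 := hkp l
  have p1 := hkp (l + 1)
  push_cast at k2 a3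
  have b2 : kp n (l + 1) * S2 ≤ kp n (l + 2) * (c * N2) := by
    rw [show l + 2 = l + 1 + 1 from rfl, k2]
    have : ((l : ℝ) + 2) * (c * N2) ≤ (n + 2 * (l + 1)) * (c * N2) :=
      mul_le_mul_of_nonneg_right (by linarith) (mul_nonneg hc hN2)
    nlinarith
  have b0 : kp n (l + 1) * (((n : ℝ) + 2 * l)⁻¹ ^ 2 * S0) ≤ kp n l * (c * N0) := by
    rw [k1]
    have e1 : ((n : ℝ) + 2 * l) * kp n l * (((n : ℝ) + 2 * l)⁻¹ ^ 2 * S0) =
        kp n l * (S0 / (n + 2 * l)) := by field_simp
    rw [e1]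
    refine mul_le_mul_of_nonneg_left ?_ p0.le
    rw [div_le_iff₀ hd]
    have : c * N0 * ((n : ℝ) + l) ≤ c * N0 * (n + 2 * l) :=
      mul_le_mul_of_nonneg_left (by linarith) (mul_nonneg hc hN0)
    linarith
  have e0 : kp n l / ((n : ℝ) + 2 * l) * A = kp n (l + 1) * (((n : ℝ) + 2 * l)⁻¹ ^ 2 * A) := by
    rw [k1]; field_simp
  have ht : 0 ≤ 1 + θ⁻¹ := by positivity
  have a7 := mul_le_mul_of_nonneg_left (a1.trans (add_le_add_left
    (mul_le_mul_of_nonneg_left a2 ht) _)) p1.le
  have a8 := mul_le_mul_of_nonneg_left (add_le_add b2 b0) ht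
  rw [e0]
  nlinarith

/-- `κ_{l-1} |δ f|² ≤ n κ_l ∑ |∇_i f|²` -/
lemma del_le (h1 : Pol1S) (h2 : Pol2S) (hn : 3 ≤ n) (F : Fr n) {l : ℕ} {f : PP n}
    (hh : ∀ i x, Sph.Harm (l + 1) (ax x (F.alg.nab i f))) (x : EE n) :
    kp n l * nq (F.alg.del f) x ≤ n * ∑ i, kp n (l + 1) * nq (F.alg.nab i f) x := by
  obtain ⟨hs, h0, -, hm, -, -, -, hkp, hkr, -⟩ := h1 n hn
  have hn3 : (3 : ℝ) ≤ n := by exact_mod_cast hn
  have hl : (0 : ℝ) ≤ l := Nat.cast_nonneg l
  have e5 : ax x (F.alg.del f) = ∑ i, pderiv i (ax x (F.alg.nab i f)) := by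
    unfold AFr.del; simp only [ax_sum, ax_pderiv]
  unfold nq
  rw [e5]
  have a1 := fis_sum_one_le hs h0 hm fun i => pderiv i (ax x (F.alg.nab i f))
  have a2 : ∀ i, kp n l * fis (pderiv i (ax x (F.alg.nab i f))) (pderiv i (ax x (F.alg.nab i f))) ≤
      kp n (l + 1) * fis (ax x (F.alg.nab i f)) (ax x (F.alg.nab i f)) := by
    intro i
    have b1 := (h2 n hn (l + 1)).2.2.2.2.2.1 _ (hh i x).hom
    have b2 := Finset.single_le_sum (f := fun j => fis (pderiv j (ax x (F.alg.nab i f)))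
      (pderiv j (ax x (F.alg.nab i f)))) (fun j _ => h0 _) (Finset.mem_univ i)
    rw [b1] at b2
    push_cast at b2
    rw [hkr l]
    have b3 := h0 (ax x (F.alg.nab i f))
    have b4 := hkp l
    have b5 : ((l : ℝ) + 1) * fis (ax x (F.alg.nab i f)) (ax x (F.alg.nab i f)) ≤
        (n + 2 * l) * fis (ax x (F.alg.nab i f)) (ax x (F.alg.nab i f)) :=
      mul_le_mul_of_nonneg_right (by linarith) b3
    nlinarith
  have a3 := Finset.sum_le_sum fun i (_ : i ∈ Finset.univ) => a2 i
  rw [← Finset.mul_sum] at a3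
  have a4 := mul_le_mul_of_nonneg_left a1 (hkp l).le
  have a5 := mul_le_mul_of_nonneg_left a3 (by linarith : (0 : ℝ) ≤ n)
  nlinarith

/-- decay of the integrated components -/
lemma decay (h1 : Pol1S) (hR3 : Rep3S) (hn : 3 ≤ n) (μ : Measure (EE n))
    [IsFiniteMeasureOnCompacts μ] {K : Set (EE n)} (hK : IsCompact K) {U : EE n → EE n → ℝ}
    (hU : SmU U) (N : ℕ) : ∃ B : ℝ, 0 ≤ B ∧ ∀ l f, Rep l U f → Sup K f →
      (l : ℝ) ^ N * (kp n l * ∫ x, nq f x ∂μ) ≤ B := by
  obtain ⟨V, hV, -, hb⟩ := (hR3 n hn).1 U hU N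
  obtain ⟨M, hM0, hM⟩ := exists_sI_le hK hV
  refine ⟨M * μ.real K, by positivity, fun l f hf hs => ?_⟩
  rw [← integral_const_mul, ← integral_const_mul]
  refine integral_le_of_supp hK (fun x hx => by rw [nq_zero hs x hx]; simp) fun x hx => ?_
  unfold nq
  rw [abs_of_nonneg (mul_nonneg (by positivity)
    (mul_nonneg ((h1 n hn).2.2.2.2.2.2.2.1 l).le ((h1 n hn).2.1 _)))]
  exact (hb l f hf x).trans (hM x hx)

end Co

open Co in
theorem coreS (h1 : Pol1S) (h2 : Pol2S) (h3 : Pol3S) (hW : WeitzS) (hR : Rep1S) (hR2 : Rep2S)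
    (hR3 : Rep3S) (hS : SumS) : CoreS := by
  intro n hn F μ κ hG ι _ u k P χ hu hX hP hχ hD
  have := hG.fin
  have := hG.pos
  obtain ⟨K0, hD⟩ := hD
  obtain ⟨hs, h0, -, hm, -, -, -, hkp, hkr, -⟩ := h1 n hn
  have hn3 : (3 : ℝ) ≤ n := by exact_mod_cast hn
  have hK : IsCompact (tsupport χ.1) := hχ
  set K := tsupport χ.1 with hKd
  set f : ι → ℕ → PP n := fun a l => C χ * P a l with hfd
  have hU : ∀ a, SmU fun x v => χ.1 x * u a x v := fun a => smU_mul χ (hu a)
  have hf : ∀ a l, Rep l (fun x v => χ.1 x * u a x v) (f a l) := fun a l =>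
    (hR n hn).2.2.2.2.2.1 l (u a) _ χ (hP a l)
  have hN := fun a i => (hR2 n hn _ (hU a)).2 F i
  have hsup : ∀ a l, Sup K (f a l) := fun a l x hx => by
    rw [hfd]; simp only
    rw [ax_C_mul, image_eq_zero_of_notMem_tsupport hx, zero_smul]
  have hnq : ∀ a l x, nq (f a l) x = χ.1 x ^ 2 * nq (P a l) x := fun a l x => by
    unfold nq; rw [hfd]; simp only
    rw [ax_C_mul, fis_smul_smul hs hm]
  have hI0 : ∀ Q : PP n, 0 ≤ ∫ x, nq Q x ∂μ := fun Q => integral_nonneg fun x => h0 _
  set m : ℕ → ℝ := fun l => ∑ a, kp n l * ∫ x, nq (f a l) x ∂μ with hmd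
  set b : ℕ → ℝ := fun l => ∑ a, kp n (l - 1) * ∫ x, nq (F.alg.del (f a l)) x ∂μ with hbd
  have hm0 : ∀ l, 0 ≤ m l := fun l => Finset.sum_nonneg fun a _ => mul_nonneg (hkp _).le (hI0 _)
  have hb0 : ∀ l, 0 ≤ b l := fun l => Finset.sum_nonneg fun a _ => mul_nonneg (hkp _).le (hI0 _)
  set c : EE n → ℝ := fun x => ∑ i, (F.alg.D i χ).1 x ^ 2 with hcd
  have hcc : Continuous c := continuous_finsetSum _ fun i _ => (Sm.sm _).continuous.pow 2
  have hc0 : ∀ x, x ∉ K → c x = 0 := fun x hx => Finset.sum_eq_zero fun i _ => by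
    have : fderiv ℝ χ.1 x = 0 := by
      by_contra h
      exact hx (support_fderiv_subset ℝ h)
    show (fderiv ℝ χ.1 x (F.e i x)) ^ 2 = 0
    rw [this]; simp
  have hci : ∀ a l, Integrable (fun x => c x * nq (P a l) x) μ := fun a l =>
    (hcc.mul (nq_cont hR hn _)).integrable_of_hasCompactSupport
      (hcs_of hK fun x hx => by simp [hc0 x hx])
  have hfi : ∀ a l, Integrable (nq (f a l)) μ := fun a l => nq_int hR hn hK (hsup a l)
  have hD' : ∀ l, ∑ a, kp n l * ∫ x, c x * nq (P a l) x ∂μ ≤ max K0 0 * m l := by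
    intro l
    have e1 : ∫ x, c x * ∑ a, nq (P a l) x ∂μ = ∑ a, ∫ x, c x * nq (P a l) x ∂μ := by
      rw [← integral_finsetSum _ fun a _ => hci a l]
      simp only [Finset.mul_sum]
    have e2 : ∫ x, χ.1 x ^ 2 * ∑ a, nq (P a l) x ∂μ = ∑ a, ∫ x, nq (f a l) x ∂μ := by
      rw [← integral_finsetSum _ fun a _ => hfi a l]
      simp only [Finset.mul_sum, hnq]
    have e3 : ∫ x, c x * ∑ a, nq (P a l) x ∂μ ≤ K0 * ∫ x, χ.1 x ^ 2 * ∑ a, nq (P a l) x ∂μ := hD l
    rw [e1, e2] at e3
    have e4 : 0 ≤ ∑ a, ∫ x, nq (f a l) x ∂μ := Finset.sum_nonneg fun a _ => hI0 _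
    rw [hmd]; simp only
    rw [← Finset.mul_sum, ← Finset.mul_sum]
    have e5 := e3.trans (mul_le_mul_of_nonneg_right (le_max_left K0 0) e4)
    have := mul_le_mul_of_nonneg_left e5 (hkp l).le
    linarith
  refine (hS b m (κ / 3) (3 * (k ^ 2 + max K0 0)) (by linarith [hG.kap_pos])
    (by positivity) hb0 hm0 ?_ ?_).elim fun D hDm => ?_
  rotate_left 2
  · refine ⟨D, fun a l x hl hx => ?_⟩
    have e1 : kp n l * ∫ x, nq (f a l) x ∂μ = 0 :=
      (Finset.sum_eq_zero_iff_of_nonneg fun a _ => mul_nonneg (hkp _).le (hI0 _)).1 (hDm l hl) a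
        (Finset.mem_univ a)
    have e2 := (mul_eq_zero.1 e1).resolve_left (hkp l).ne'
    have e3 := (integral_eq_zero_iff_of_nonneg (fun x => h0 _) (hfi a l)).1 e2
    have e4 := congrFun (((nq_cont hR hn (f a l)).ae_eq_iff_eq μ continuous_zero).1 e3) x
    rw [hnq, Pi.zero_apply] at e4
    exact fis_self_eq_zero ((mul_eq_zero.1 e4).resolve_left (pow_ne_zero 2 hx))
  · intro N
    choose B1 hB1 hB1' using fun a => decay h1 hR3 hn μ hK (hU a) N
    choose B2 hB2 hB2' using fun a i => decay h1 hR3 hn μ hK (hN a i).1 N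
    have s1 : 0 ≤ ∑ a, B1 a := Finset.sum_nonneg fun a _ => hB1 a
    have s2 : 0 ≤ ∑ a, (n : ℝ) * ∑ i, B2 a i := Finset.sum_nonneg fun a _ =>
      mul_nonneg (by linarith) (Finset.sum_nonneg fun i _ => hB2 a i)
    refine ⟨∑ a, B1 a + ∑ a, (n : ℝ) * ∑ i, B2 a i + b 0, fun l => ⟨?_, ?_⟩⟩
    · rcases l with _ | l
      · have : ((0 : ℕ) : ℝ) ^ N ≤ 1 := pow_le_one₀ (by simp) (by simp)
        have := mul_le_mul_of_nonneg_right this (hb0 0)
        linarith
      · have : ((l + 1 : ℕ) : ℝ) ^ N * b (l + 1) ≤ ∑ a, (n : ℝ) * ∑ i, B2 a i := by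
          rw [hbd]; simp only
          rw [Finset.mul_sum]
          refine Finset.sum_le_sum fun a _ => ?_
          have hni : ∀ i, Integrable (nq (F.alg.nab i (f a (l + 1)))) μ := fun i =>
            nq_int hR hn hK ((hsup a _).nab hK.isClosed F i)
          have t1 := integral_mono ((nq_int hR hn (μ := μ) hK
            ((hsup a (l + 1)).del hK.isClosed F)).const_mul (kp n l))
            ((integrable_finsetSum _ fun i _ => (hni i).const_mul (kp n (l + 1))).const_mul n)
            (del_le h1 h2 hn F (fun i x => ((hN a i).2 _ _ (hf a (l + 1)) x).1))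
          rw [integral_const_mul, integral_const_mul,
            integral_finsetSum _ fun i _ => (hni i).const_mul _] at t1
          simp only [integral_const_mul] at t1
          have t2 := Finset.sum_le_sum fun i (_ : i ∈ Finset.univ) =>
            hB2' a i (l + 1) _ ((hN a i).2 _ _ (hf a (l + 1))) ((hsup a _).nab hK.isClosed F i)
          rw [← Finset.mul_sum] at t2
          have t3 := mul_le_mul_of_nonneg_left t1 (by positivity : 0 ≤ ((l + 1 : ℕ) : ℝ) ^ N)
          have t4 := mul_le_mul_of_nonneg_left t2 (by linarith : (0 : ℝ) ≤ n)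
          rw [Nat.add_sub_cancel]
          linarith
        linarith [hb0 0]
    · have : (l : ℝ) ^ N * m l ≤ ∑ a, B1 a := by
        rw [hmd]; simp only
        rw [Finset.mul_sum]
        exact Finset.sum_le_sum fun a _ => hB1' a l _ (hf a l) (hsup a l)
      linarith [hb0 0]
  · intro T hT l hl
    have hl1 : (1 : ℝ) ≤ l := by exact_mod_cast hl
    have hθ : 0 < T / l := by positivity
    have hd : (0 : ℝ) < n + 2 * l := by linarith
    have hd2 : (0 : ℝ) < n + 2 * l - 2 := by linarith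
    have hkl : kp n l = (n + 2 * l - 2) * kp n (l - 1) := by
      obtain ⟨j, rfl⟩ : ∃ j, l = j + 1 := ⟨l - 1, by omega⟩
      rw [hkr j, Nat.add_sub_cancel]; push_cast; ring
    have up : ∀ a, kp n l / ((n : ℝ) + 2 * l) * ∫ x, nq (F.alg.Xp l (f a l)) x ∂μ ≤
        (1 + (T / l)⁻¹) * (3 * (k ^ 2 * (kp n (l + 1) * ∫ x, nq (f a (l + 1)) x ∂μ) +
          kp n (l + 2) * ∫ x, c x * nq (P a (l + 2)) x ∂μ +
          kp n l * ∫ x, c x * nq (P a l) x ∂μ)) +
        (1 + T / l) * (kp n (l + 1) * ∫ x, nq (F.alg.del (f a (l + 2))) x ∂μ) := by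
      intro a
      have j1 := ((hfi a (l + 1)).const_mul (kp n (l + 1))).const_mul (k ^ 2)
      have j2 := (hci a (l + 2)).const_mul (kp n (l + 2))
      have j3 := (hci a l).const_mul (kp n l)
      have j4 := ((nq_int hR hn (μ := μ) hK ((hsup a (l + 2)).del hK.isClosed F)).const_mul
        (kp n (l + 1))).const_mul (1 + T / l)
      have j5 := (((j1.add j2).add j3).const_mul 3).const_mul (1 + (T / l)⁻¹)
      have t := integral_mono ((nq_int hR hn (μ := μ) hK
        ((hsup a l).Xp hR hn hK.isClosed F l)).const_mul (kp n l / ((n : ℝ) + 2 * l))) (j5.add j4)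
        (recur_le h1 h2 hR hR2 hn F χ (hu a) (hX a) (hP a) l hθ)
      rw [integral_add' j5 j4, integral_const_mul, integral_const_mul, integral_const_mul,
        integral_add' (j1.add j2) j3, integral_add' j1 j2] at t
      simp only [integral_const_mul] at t
      exact t
    have low : ∀ a, (1 - 2 / (l : ℝ)) * (kp n (l - 1) * ∫ x, nq (F.alg.del (f a l)) x ∂μ) +
        κ / 3 * l * (kp n l * ∫ x, nq (f a l) x ∂μ) ≤
        kp n l / ((n : ℝ) + 2 * l) * ∫ x, nq (F.alg.Xp l (f a l)) x ∂μ := by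
      intro a
      have t := weitz_int h1 h2 h3 hW hR hn hG hK (hsup a l) (fun x => (hf a l x).1)
        fun i x => ((hN a i).2 _ _ (hf a l) x).1
      have t2 := mul_le_mul_of_nonneg_left t (div_pos (hkp l) hd).le
      refine le_trans ?_ t2
      rw [mul_add]
      have q1 := hI0 (F.alg.del (f a l))
      have q2 := hI0 (f a l)
      have q3 := hkp (l - 1)
      have q4 := hkp l
      refine add_le_add ?_ ?_
      · have e1 : kp n l / ((n : ℝ) + 2 * l) * ((1 - 2 / ((n : ℝ) + 2 * l - 2)) *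
            ∫ x, nq (F.alg.del (f a l)) x ∂μ) =
            (1 - 4 / ((n : ℝ) + 2 * l)) * (kp n (l - 1) * ∫ x, nq (F.alg.del (f a l)) x ∂μ) := by
          rw [hkl]; field_simp; ring
        rw [e1]
        refine mul_le_mul_of_nonneg_right ?_ (mul_nonneg q3.le q1)
        have : 4 / ((n : ℝ) + 2 * l) ≤ 2 / l := by
          rw [div_le_div_iff₀ hd (by linarith)]; nlinarith
        linarith
      · have e1 : kp n l / ((n : ℝ) + 2 * l) * (κ * ((l : ℝ) * (l + n - 2)) *
            ∫ x, nq (f a l) x ∂μ) =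
            κ * l * ((l + n - 2) / ((n : ℝ) + 2 * l)) * (kp n l * ∫ x, nq (f a l) x ∂μ) := by
          field_simp
        rw [e1]
        refine mul_le_mul_of_nonneg_right ?_ (mul_nonneg q4.le q2)
        have : 1 / 3 ≤ ((l : ℝ) + n - 2) / ((n : ℝ) + 2 * l) := by
          rw [div_le_div_iff₀ (by norm_num) hd]; linarith
        have := mul_le_mul_of_nonneg_left this
          (mul_nonneg hG.kap_pos.le (by linarith : (0 : ℝ) ≤ l))
        linarith
    have tot := Finset.sum_le_sum fun a (_ : a ∈ Finset.univ) => (low a).trans (up a)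
    simp only [Finset.sum_add_distrib, ← Finset.mul_sum (a := 1 - 2 / (l : ℝ)),
      ← Finset.mul_sum (a := κ / 3 * l), ← Finset.mul_sum (a := 1 + (T / l)⁻¹),
      ← Finset.mul_sum (a := 1 + T / l), ← Finset.mul_sum (a := (3 : ℝ)),
      ← Finset.mul_sum (a := k ^ 2)] at tot
    have eb : b (l + 2) = ∑ a, kp n (l + 1) * ∫ x, nq (F.alg.del (f a (l + 2))) x ∂μ := rfl
    have ei : (T / (l : ℝ))⁻¹ = l / T := inv_div _ _
    rw [← eb, ei] at tot
    have d2 := hD' (l + 2)
    have d0 := hD' l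
    have ht : 0 ≤ 1 + (l : ℝ) / T := by positivity
    have hK0 : 0 ≤ max K0 0 := le_max_right _ _
    have m0 := hm0 l
    have m1 := hm0 (l + 1)
    have m2 := hm0 (l + 2)
    have fin : 3 * (k ^ 2 * m (l + 1) + ∑ a, kp n (l + 2) * ∫ x, c x * nq (P a (l + 2)) x ∂μ +
        ∑ a, kp n l * ∫ x, c x * nq (P a l) x ∂μ) ≤
        3 * (k ^ 2 + max K0 0) * (m l + m (l + 1) + m (l + 2)) := by
      nlinarith [mul_nonneg (sq_nonneg k) m0, mul_nonneg (sq_nonneg k) m2, mul_nonneg hK0 m1]
    have fin2 := mul_le_mul_of_nonneg_left fin ht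
    show (1 - 2 / (l : ℝ)) * (∑ a, kp n (l - 1) * ∫ x, nq (F.alg.del (f a l)) x ∂μ) +
      κ / 3 * l * (∑ a, kp n l * ∫ x, nq (f a l) x ∂μ) ≤ _
    refine tot.trans ?_
    show (1 + (l : ℝ) / T) * (3 * (k ^ 2 * m (l + 1) + _ + _)) + _ ≤ _
    linarith

end Crest.Agent.N221.Car
end
end

-- ▼ part N221/Car/Main

/-!
Row 221, block `Car`: from one cut-off to the finite degree theorem (`carS`, helper6).
-/

set_option autoImplicit false

open MvPolynomial MeasureTheory Function
open scoped ContDiff RealInnerProductSpace Topology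
open Crest.Agent.R086 Crest.Agent.R086.SH

noncomputable section

namespace Crest.Agent.N221.Car

namespace Mn

variable {n : ℕ} {u u' : EE n → EE n → ℝ} {x v : EE n}

def bt : ContDiffBump (1 : ℝ) := ⟨1 / 4, 1 / 2, by norm_num, by norm_num⟩

/-- extension from the unit sphere -/
def ext (u : EE n → EE n → ℝ) (x v : EE n) : ℝ := bt ‖v‖ * u x (‖v‖⁻¹ • v)

lemma ext_eq (hv : ‖v‖ = 1) : ext u x v = u x v := by
  rw [ext, hv, bt.one_of_mem_closedBall (Metric.mem_closedBall_self bt.rIn_pos.le), inv_one,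
    one_smul, one_mul]

lemma ext_sm (hu : ∀ x v, ‖v‖ = 1 → ContDiffAt ℝ ∞ (uncurry u) (x, v)) : SmU (ext u) := by
  refine contDiff_iff_contDiffAt.2 fun z => ?_
  rcases eq_or_ne z.2 0 with h | h
  · refine (contDiffAt_const (c := 0)).congr_of_eventuallyEq ?_
    have : ∀ᶠ y : EE n × EE n in 𝓝 z, ‖y.2‖ < 1 / 2 :=
      continuous_snd.norm.continuousAt.eventually_lt continuousAt_const (by simp [h])
    filter_upwards [this] with y hy
    have : bt ‖y.2‖ = 0 := bt.zero_of_le_dist (by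
      rw [dist_comm]; exact le_trans (by simp only [bt]; linarith) (le_abs_self _))
    simp only [uncurry, ext, this, zero_mul]
  · have h1 : ContDiffAt ℝ ∞ (fun y : EE n × EE n => ‖y.2‖) z := contDiffAt_snd.norm ℝ h
    exact (bt.contDiffAt.comp z h1).mul
      ((hu z.1 _ (norm_smul_inv_norm h)).comp z (f := fun y : EE n × EE n => (y.1, ‖y.2‖⁻¹ • y.2))
        (contDiffAt_fst.prodMk ((h1.inv (norm_ne_zero_iff.2 h)).smul contDiffAt_snd)))

/-- tangential derivatives only depend on the values on the sphere -/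
lemma fderiv_tan (h : ∀ x v, ‖v‖ = 1 → u' x v = u x v) (hv : ‖v‖ = 1)
    (h1 : DifferentiableAt ℝ (uncurry u') (x, v)) (h2 : DifferentiableAt ℝ (uncurry u) (x, v))
    (e : EE n) {w : EE n} (hw : ⟪v, w⟫ = 0) :
    fderiv ℝ (uncurry u') (x, v) (e, w) = fderiv ℝ (uncurry u) (x, v) (e, w) := by
  have l : ∀ p d : EE n, HasDerivAt (fun t : ℝ => p + t • d) d 0 := fun p d => by
    simpa using ((hasDerivAt_id (0 : ℝ)).smul_const d).const_add p
  have a1 : HasDerivAt (fun t : ℝ => ‖v + t • w‖) 0 0 := by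
    simpa [hw] using (l v w).norm_sq.sqrt (by simp [hv])
  have a2 : HasDerivAt (fun t : ℝ => (x + t • e, ‖v + t • w‖⁻¹ • (v + t • w))) (e, w) 0 :=
    (l x e).prodMk (((a1.inv (by simp [hv])).smul (l v w)).congr_deriv (by simp [hv]))
  have a3 : ∀ t : ℝ, v + t • w ≠ 0 := fun t ht => by
    have := congrArg (⟪v, ·⟫) ht
    simp [inner_add_right, inner_smul_right, hw, hv] at this
  have a4 : (x, v) = (x + (0 : ℝ) • e, ‖v + (0 : ℝ) • w‖⁻¹ • (v + (0 : ℝ) • w)) := by simp [hv]
  refine (h1.hasFDerivAt.comp_hasDerivAt_of_eq 0 a2 a4).unique ?_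
  convert h2.hasFDerivAt.comp_hasDerivAt_of_eq 0 a2 a4 using 1
  exact funext fun t => h _ _ (norm_smul_inv_norm (a3 t))

lemma inner_omv (F : Fr n) (i : Fin n) (x v : EE n) : ⟪v, -F.omv i x v⟫ = 0 := by
  have h : ∑ a, ∑ b, (F.om i a b).1 x * v b * v a = -∑ a, ∑ b, (F.om i a b).1 x * v b * v a := by
    conv_lhs => rw [Finset.sum_comm]
    simp only [← Finset.sum_neg_distrib]
    refine Finset.sum_congr rfl fun a _ => Finset.sum_congr rfl fun b _ => ?_
    rw [F.skew i b a]
    show -(F.om i a b).1 x * _ * _ = _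
    ring
  simp only [inner_neg_right, PiLp.inner_apply, Fr.omv, RCLike.inner_apply, conj_trivial,
    Finset.sum_mul]
  linarith

/-- cocompactness: the derivative of the cut-off is dominated -/
lemma dom {μ : Measure (EE n)} [IsFiniteMeasureOnCompacts μ] {σ : Type} (g : σ → EE n ≃ₜ EE n)
    (mp : ∀ s, MeasurePreserving (g s) μ μ) {χ E : EE n → ℝ} (hχ : Continuous χ)
    (cχ : HasCompactSupport χ) (hE : Continuous E) (cE : HasCompactSupport E)
    (cov : ∀ x, ∃ s, 1 / 2 < χ ((g s).symm x) ^ 2) (K : σ → ℝ) :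
    ∃ K' : ℝ, ∀ N : EE n → ℝ, Continuous N → (∀ x, 0 ≤ N x) → (∀ s x, N (g s x) ≤ K s * N x) →
      ∫ x, E x * N x ∂μ ≤ K' * ∫ x, χ x ^ 2 * N x ∂μ := by
  obtain ⟨t, ht⟩ := cE.isCompact.elim_finite_subcover (fun s => {x | 1 / 2 < χ ((g s).symm x) ^ 2})
    (fun s => isOpen_lt continuous_const (by fun_prop)) fun x _ => Set.mem_iUnion.2 (cov x)
  obtain ⟨C, hC⟩ := hE.bounded_above_of_compact_support cE
  have C0 : 0 ≤ C := (norm_nonneg _).trans (hC 0)
  have c2 : HasCompactSupport fun x => χ x ^ 2 := cχ.comp_left (g := (· ^ 2)) (by simp)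
  refine ⟨2 * C * ∑ s ∈ t, K s, fun N hN N0 hK => ?_⟩
  have i1 : ∀ s, Integrable (fun x => χ ((g s).symm x) ^ 2 * N x) μ := fun s =>
    Continuous.integrable_of_hasCompactSupport (by fun_prop)
      (c2.comp_homeomorph (g s).symm).mul_right
  calc _ ≤ ∫ x, 2 * C * ∑ s ∈ t, χ ((g s).symm x) ^ 2 * N x ∂μ := by
        refine integral_mono ((hE.mul hN).integrable_of_hasCompactSupport cE.mul_right)
          ((integrable_finsetSum _ fun s _ => i1 s).const_mul _) fun x => ?_
        simp only [← Finset.sum_mul, ← mul_assoc]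
        refine mul_le_mul_of_nonneg_right ?_ (N0 x)
        by_cases hx : x ∈ tsupport E
        · obtain ⟨s, hs, h⟩ := Set.mem_iUnion₂.1 (ht hx)
          have := Finset.single_le_sum (f := fun s => χ ((g s).symm x) ^ 2)
            (fun s _ => sq_nonneg _) hs
          have h : 1 / 2 < χ ((g s).symm x) ^ 2 := h
          nlinarith [(le_abs_self _).trans (hC x)]
        · rw [image_eq_zero_of_notMem_tsupport hx]; positivity
    _ ≤ _ := by
        rw [integral_const_mul, integral_finsetSum _ fun s _ => i1 s, mul_assoc (2 * C),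
          Finset.sum_mul]
        refine mul_le_mul_of_nonneg_left (Finset.sum_le_sum fun s _ => ?_) (by positivity)
        rw [← (mp s).integral_comp (g s).measurableEmbedding, ← integral_const_mul]
        simp only [Homeomorph.symm_apply_apply]
        refine integral_mono (Continuous.integrable_of_hasCompactSupport (by fun_prop) c2.mul_right)
          ((Continuous.integrable_of_hasCompactSupport (by fun_prop) c2.mul_right).const_mul _)
          fun x => ?_
        have := mul_le_mul_of_nonneg_left (hK s x) (sq_nonneg (χ x))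
        simp only
        linarith

end Mn

open Mn

theorem carS (h1 : Pol1S) (hR : Rep1S) (hR3 : Rep3S) (hC : CoreS) : CarS := by
  intro n hn F μ κ hG ι _ u k hu hX ⟨R, hR'⟩
  obtain ⟨r1, -, -, r2, -, r3, -⟩ := hR n hn
  obtain ⟨-, s2, s3⟩ := hR3 n hn
  have f0 := (h1 n hn).2.1
  have sm : ∀ a, SmU (ext (u a)) := fun a => ext_sm (hu a)
  choose P hP using fun a l => r2 l _ (sm a)
  let tr : Sym μ u → Sym μ fun a => ext (u a) := fun s =>
    ⟨s.g, s.mp, s.O, s.B, fun a x v hv => by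
      simp only [ext_eq hv, ext_eq ((s.O x).norm_map v ▸ hv :), s.eqv a x v hv]⟩
  choose K K0 hK using fun s => s3 ι μ _ (tr s) sm
  let χ : ContDiffBump (0 : EE n) := ⟨max R 1, max R 1 + 1, by positivity, by linarith⟩
  have c1 : ∀ y, ‖y‖ < R → χ y = 1 := fun y hy =>
    χ.one_of_mem_closedBall (mem_closedBall_zero_iff.2 (hy.le.trans (le_max_left ..)))
  have := hG.fin
  obtain ⟨K', hK'⟩ := dom (fun s : Sym μ u => s.g) (fun s => s.mp) χ.continuous χ.hasCompactSupport
    (E := fun x => ∑ i, (F.alg.D i ⟨χ, χ.contDiff⟩).1 x ^ 2)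
    (continuous_finsetSum _ fun i _ => (Sm.sm _).continuous.pow 2)
    (χ.hasCompactSupport.mono' fun x hx => by_contra fun h => hx (Finset.sum_eq_zero fun i _ => by
      show fderiv ℝ χ x _ ^ 2 = 0
      simp [fderiv_of_notMem_tsupport ℝ h]))
    (fun x => by
      obtain ⟨s, y, hy, rfl⟩ := hR' x
      exact ⟨s, by rw [Homeomorph.symm_apply_apply, c1 y hy]; norm_num⟩) K
  obtain ⟨D, hD⟩ := hC n hn F μ κ hG ι (fun a => ext (u a)) k P ⟨χ, χ.contDiff⟩ sm
    (fun a x v hv => by
      rw [ext_eq hv, ← hX a x v hv]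
      exact Finset.sum_congr rfl fun i _ => congrArg _ (fderiv_tan (fun _ _ => ext_eq) hv
        ((sm a).differentiable (by simp) _) ((hu a x v hv).differentiableAt (by simp)) _
        (inner_omv F i x v)))
    hP χ.hasCompactSupport ⟨K', fun l => hK' _
      (continuous_finsetSum _ fun a _ => by simp only [← r1]; exact (Sm.sm _).continuous)
      (fun x => Finset.sum_nonneg fun a _ => f0 _) fun s x => hK s l _ (fun a => hP a l) x⟩
  refine ⟨D, fun a l => C (algebraMap ℝ (Sm n) (kp n l)) * P a l,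
    fun a l x => (r3 l _ _ _ (hP a l) x).1, fun a x v hv => ?_⟩
  rw [← ext_eq (u := u a) hv, s2 _ _ D x (sm a) (hP a) (fun l hl => ?_) v hv]
  · exact Finset.sum_congr rfl fun l _ => by simp [ax, pfun, evx_apply]
  obtain ⟨s, y, hy, rfl⟩ := hR' x
  have h := hK s l _ (fun a => hP a l) y
  have h0 : ∀ a, ax y (P a l) = 0 := fun a => hD a l y hl (by
    show χ y ≠ 0
    rw [c1 y hy]; exact one_ne_zero)
  simp only [h0, show fis (0 : P0 n) 0 = 0 from rfl, Finset.sum_const_zero, mul_zero] at h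
  exact fis_self_eq_zero (le_antisymm ((Finset.single_le_sum
    (f := fun a => fis (ax (s.g y) (P a l)) (ax (s.g y) (P a l))) (fun a _ => f0 _)
    (Finset.mem_univ a)).trans h) (f0 _))

end Crest.Agent.N221.Car
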